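import Vale.Agent.P065.UB.H410.MultDefs

/-!
# P065, upper bound: LEMMA M from its one-group form (helper666, row MULT of helper410)

`stMult_of : H410.StGroup → H410.StMult`.  Keys (window of the leaf and the centre, nearest end,
side), comparison of the weighted distances to the nearest end, eight classes.
-/

set_option autoImplicit false

namespace Vale.Agent.P065.UB.H666.Mult

open Finset Vale.Agent.P065.UB Vale.Agent.P065.UB.RankAux Vale.Agent.P065.H183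
open Vale.Agent.P065.UB.H415 (prj)

/-- large classes of a refined partition -/
theorem classes {α β γ : Type*} [DecidableEq β] [DecidableEq γ] [Fintype γ] (X : Finset α)
    (f : α → β) (c : α → γ) (M : ℕ) :
    #{x ∈ X | 2 * Fintype.card γ * M ≤ #{y ∈ X | f y = f x}} ≤
      2 * #{x ∈ X | M ≤ #{y ∈ X | f y = f x ∧ c y = c x}} := by
  classical
  set A : Finset α := {x ∈ X | 2 * Fintype.card γ * M ≤ #{y ∈ X | f y = f x}} with hA
  set B : Finset α := {x ∈ X | M ≤ #{y ∈ X | f y = f x ∧ c y = c x}} with hB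
  have hA' : #A = ∑ b ∈ X.image f, #{x ∈ A | f x = b} := by
    apply card_eq_sum_card_fiberwise
    intro x hx
    exact mem_coe.2 (mem_image_of_mem f (mem_filter.1 (mem_coe.1 hx)).1)
  have hB' : #B = ∑ b ∈ X.image f, #{x ∈ B | f x = b} := by
    apply card_eq_sum_card_fiberwise
    intro x hx
    exact mem_coe.2 (mem_image_of_mem f (mem_filter.1 (mem_coe.1 hx)).1)
  rw [hA', hB', mul_sum]
  refine sum_le_sum fun b _ => ?_
  set F : Finset α := {x ∈ X | f x = b} with hF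
  have hAF : ({x ∈ A | f x = b} : Finset α) ⊆ F := by
    intro x hx
    obtain ⟨h1, h2⟩ := mem_filter.1 hx
    exact mem_filter.2 ⟨(mem_filter.1 h1).1, h2⟩
  by_cases hc : 2 * Fintype.card γ * M ≤ #F
  · -- the small classes
    have h1 : F ⊆ {x ∈ B | f x = b} ∪
        (univ : Finset γ).biUnion fun g => {x ∈ F | c x = g ∧ #{y ∈ F | c y = g} < M} := by
      intro x hx
      obtain ⟨hx1, hx2⟩ := mem_filter.1 hx
      have e : ({y ∈ X | f y = f x ∧ c y = c x} : Finset α) = {y ∈ F | c y = c x} := by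
        ext y
        simp only [hF, mem_filter, hx2]
        tauto
      rw [mem_union]
      by_cases hM : M ≤ #{y ∈ F | c y = c x}
      · left
        rw [mem_filter]
        exact ⟨mem_filter.2 ⟨hx1, by rw [e]; exact hM⟩, hx2⟩
      · right
        rw [mem_biUnion]
        exact ⟨c x, mem_univ _, mem_filter.2 ⟨hx, rfl, not_le.1 hM⟩⟩
    have h2 : #((univ : Finset γ).biUnion fun g =>
        {x ∈ F | c x = g ∧ #{y ∈ F | c y = g} < M}) ≤ Fintype.card γ * M := by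
      refine card_biUnion_le.trans ?_
      calc ∑ g : γ, #{x ∈ F | c x = g ∧ #{y ∈ F | c y = g} < M} ≤ ∑ _g : γ, M := by
            refine sum_le_sum fun g _ => ?_
            by_cases hg : #{y ∈ F | c y = g} < M
            · refine le_trans (card_le_card ?_) hg.le
              intro x hx
              obtain ⟨h1, h2, _⟩ := mem_filter.1 hx
              exact mem_filter.2 ⟨h1, h2⟩
            · have : ({x ∈ F | c x = g ∧ #{y ∈ F | c y = g} < M} : Finset α) = ∅ := by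
                rw [filter_eq_empty_iff]
                intro x _ hx
                exact hg hx.2
              rw [this, card_empty]
              exact Nat.zero_le _
        _ = Fintype.card γ * M := by rw [sum_const, smul_eq_mul, card_univ]
    have h3 := (card_le_card h1).trans (card_union_le _ _)
    have h4 := card_le_card hAF
    have h5 : 2 * (Fintype.card γ * M) ≤ #F := by rw [← mul_assoc]; exact hc
    omega
  · have : ({x ∈ A | f x = b} : Finset α) = ∅ := by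
      rw [filter_eq_empty_iff]
      intro x hx hxb
      apply hc
      have h1 := (mem_filter.1 hx).2
      rw [hxb] at h1
      exact h1
    rw [this, card_empty]
    exact Nat.zero_le _

section mult

variable {K lam : ℝ} {Q : Finset Pt} {W : Finset ℕ} {I : ℕ → Set ℝ} {R : ℕ → Finset Pt}

open Classical in
/-- the slopes of the pairs with label `w` -/
noncomputable def Sl (E : Finset (Pt × Pt)) (Wd : Pt × Pt → ℕ) (w : ℕ) : Finset ℝ :=
  {e ∈ E | Wd e = w}.image fun e => sl e.1 e.2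

/-- lower end -/
noncomputable def t1 (E : Finset (Pt × Pt)) (Wd : Pt × Pt → ℕ) (w : ℕ) : ℝ :=
  sInf (Sl E Wd w : Set ℝ)

/-- upper end -/
noncomputable def t2 (E : Finset (Pt × Pt)) (Wd : Pt × Pt → ℕ) (w : ℕ) : ℝ :=
  sSup (Sl E Wd w : Set ℝ)

/-- distance of the slope to the nearest end -/
noncomputable def dd (E : Finset (Pt × Pt)) (Wd : Pt × Pt → ℕ) (e : Pt × Pt) : ℝ :=
  min (sl e.1 e.2 - t1 E Wd (Wd e)) (t2 E Wd (Wd e) - sl e.1 e.2)

/-- the weighted distance -/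
noncomputable def th (E : Finset (Pt × Pt)) (Wd : Pt × Pt → ℕ) (e : Pt × Pt) : ℝ :=
  dd E Wd e * |e.1.1 - e.2.1|

open Classical in
/-- the nearest end -/
noncomputable def bb (E : Finset (Pt × Pt)) (Wd : Pt × Pt → ℕ) (e : Pt × Pt) : Bool :=
  decide (sl e.1 e.2 - t1 E Wd (Wd e) ≤ t2 E Wd (Wd e) - sl e.1 e.2)

open Classical in
/-- the key of a pair -/
noncomputable def key (E : Finset (Pt × Pt)) (Wd : Pt × Pt → ℕ) (e : Pt × Pt) :
    ℕ × Bool × Bool := (Wd e, bb E Wd e, decide (e.1.1 < e.2.1))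

open Classical in
/-- the group of a leaf and a key -/
noncomputable def gr (Q : Finset Pt) (E : Finset (Pt × Pt)) (Wd : Pt × Pt → ℕ) (c : Pt)
    (k : ℕ × Bool × Bool) : Finset Pt := {z ∈ Q | (c, z) ∈ E ∧ key E Wd (c, z) = k}

open Classical in
/-- the pairs of a group -/
noncomputable def pr (Q A : Finset Pt) (E : Finset (Pt × Pt)) (Wd : Pt × Pt → ℕ) (c : Pt)
    (k : ℕ × Bool × Bool) : Finset (Pt × Pt) :=
  {e ∈ gr Q E Wd c k ×ˢ A | (e.2, e.1) ∈ E ∧ Wd (e.2, e.1) ≠ k.1 ∧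
    th E Wd (c, e.1) ≤ th E Wd (e.2, e.1)}

open Classical in
/-- the bad pairs of a group -/
noncomputable def bad (Q A : Finset Pt) (E : Finset (Pt × Pt)) (Wd : Pt × Pt → ℕ) (M : ℕ)
    (c : Pt) (k : ℕ × Bool × Bool) : Finset (Pt × Pt) :=
  {e ∈ pr Q A E Wd c k | M ≤ #{z ∈ gr Q E Wd c k | (z, e.2) ∈ pr Q A E Wd c k ∧
    Wd (e.2, z) = Wd (e.2, e.1)}}

variable {A : Finset Pt} {E : Finset (Pt × Pt)} {Wd : Pt × Pt → ℕ}

theorem sl_mem {e : Pt × Pt} (he : e ∈ E) : sl e.1 e.2 ∈ Sl E Wd (Wd e) := by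
  classical
  unfold Sl
  exact mem_image.2 ⟨e, mem_filter.2 ⟨he, rfl⟩, rfl⟩

theorem t1_le {e : Pt × Pt} (he : e ∈ E) : t1 E Wd (Wd e) ≤ sl e.1 e.2 :=
  csInf_le (Finset.bddBelow _) (mem_coe.2 (sl_mem he))

theorem le_t2 {e : Pt × Pt} (he : e ∈ E) : sl e.1 e.2 ≤ t2 E Wd (Wd e) :=
  le_csSup (Finset.bddAbove _) (mem_coe.2 (sl_mem he))

theorem Sl_sub (hE : ∀ e ∈ E, sl e.1 e.2 ∈ I (Wd e)) {w : ℕ} {s : ℝ} (hs : s ∈ Sl E Wd w) :
    s ∈ I w := by
  classical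
  unfold Sl at hs
  obtain ⟨e, he, rfl⟩ := mem_image.1 hs
  obtain ⟨he', rfl⟩ := mem_filter.1 he
  exact hE e he'

theorem t1_mem (hE : ∀ e ∈ E, sl e.1 e.2 ∈ I (Wd e)) {e : Pt × Pt} (he : e ∈ E) :
    t1 E Wd (Wd e) ∈ I (Wd e) :=
  Sl_sub hE (Finset.Nonempty.csInf_mem ⟨_, sl_mem he⟩)

theorem t2_mem (hE : ∀ e ∈ E, sl e.1 e.2 ∈ I (Wd e)) {e : Pt × Pt} (he : e ∈ E) :
    t2 E Wd (Wd e) ∈ I (Wd e) :=
  Sl_sub hE (Finset.Nonempty.csSup_mem ⟨_, sl_mem he⟩)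

/-- the end of a key -/
noncomputable def en (E : Finset (Pt × Pt)) (Wd : Pt × Pt → ℕ) (k : ℕ × Bool × Bool) : ℝ :=
  if k.2.1 = true then t1 E Wd k.1 else t2 E Wd k.1

theorem dist_en {e : Pt × Pt} (he : e ∈ E) :
    |sl e.1 e.2 - en E Wd (key E Wd e)| = dd E Wd e := by
  classical
  have a1 := t1_le (Wd := Wd) he
  have a2 := le_t2 (Wd := Wd) he
  unfold en key dd bb
  simp only [decide_eq_true_eq]
  split_ifs with h
  · rw [min_eq_left h, abs_of_nonneg (by linarith)]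
  · rw [min_eq_right (not_le.1 h).le, abs_of_nonpos (by linarith)]
    ring

/-- the slope seen from the projected centre is in the window -/
theorem proj_mem (hconn : ∀ w ∈ W, (I w).OrdConnected)
    (hE : ∀ e ∈ E, Wd e ∈ W ∧ e.1.1 ≠ e.2.1 ∧ sl e.1 e.2 ∈ I (Wd e)) {c z b : Pt}
    (hc : (c, z) ∈ E) (hb : (b, z) ∈ E) (hth : th E Wd (c, z) ≤ th E Wd (b, z)) :
    sl (prj (en E Wd (key E Wd (c, z))) c z) b ∈ I (Wd (b, z)) := by
  have hEI : ∀ e ∈ E, sl e.1 e.2 ∈ I (Wd e) := fun e he => (hE e he).2.2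
  have h1 := hE _ hc
  have h2 := hE _ hb
  simp only at h1 h2
  have hd := dist_en (Wd := Wd) hc
  simp only at hd
  have hmove : |sl (prj (en E Wd (key E Wd (c, z))) c z) b - sl z b| ≤ dd E Wd (b, z) := by
    apply H415.sl_prj_le (Ne.symm h1.2.1) (Ne.symm h2.2.1)
    rw [H415.sl_symm z c, hd]
    unfold th at hth
    simp only at hth
    rw [abs_sub_comm z.1 c.1, abs_sub_comm z.1 b.1]
    exact hth
  rw [H415.sl_symm z b] at hmove
  have b1 : dd E Wd (b, z) ≤ sl b z - t1 E Wd (Wd (b, z)) := min_le_left _ _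
  have b2 : dd E Wd (b, z) ≤ t2 E Wd (Wd (b, z)) - sl b z := min_le_right _ _
  obtain ⟨b3, b4⟩ := abs_le.1 hmove
  exact (hconn _ h2.1).out (t1_mem hEI hb) (t2_mem hEI hb) ⟨by linarith, by linarith⟩

/-- one group -/
theorem group_le (hG : H410.StGroup) (hJ : JView K lam Q W I R) (hN : lam ^ 5 ≤ #Q)
    (hE : ∀ e ∈ E, e.1 ∈ A ∧ e.2 ∈ Q ∧ Wd e ∈ W ∧ e.2 ∈ R (Wd e) ∧ e.1.1 ≠ e.2.1 ∧
      sl e.1 e.2 ∈ I (Wd e)) {L : ℝ} (hL : 1 ≤ L)
    (hA : open Classical in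
      ∀ z ∈ Q, ∀ w ∈ W, lam * #{a ∈ A | (a, z) ∈ E ∧ Wd (a, z) = w} ≤ L * #A)
    {M : ℕ} {D : ℝ} (hM : 1 ≤ M) (hD : 1 ≤ D) (hMD : K * L * D ^ 6 * #Q ≤ lam ^ 2 * M)
    (c : Pt) (k : ℕ × Bool × Bool) (hk : k.1 ∈ W) : open Classical in
    D * #(bad Q A E Wd M c k) ≤
      (253 * #(gr Q E Wd c k) + #{p ∈ Q | sl c p ∈ I k.1}) * #A := by
  classical
  rcases (gr Q E Wd c k).eq_empty_or_nonempty with h0 | ⟨z0, hz0⟩
  · have : bad Q A E Wd M c k = ∅ := by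
      unfold bad pr
      rw [h0]
      simp
    rw [this, card_empty, Nat.cast_zero, mul_zero]
    positivity
  have hgr : ∀ z ∈ gr Q E Wd c k, z ∈ Q ∧ (c, z) ∈ E ∧ key E Wd (c, z) = k := by
    intro z hz
    unfold gr at hz
    exact mem_filter.1 hz
  have hkk : ∀ z ∈ gr Q E Wd c k, Wd (c, z) = k.1 := by
    intro z hz
    rw [← (hgr z hz).2.2]
    rfl
  have hpr : ∀ e ∈ pr Q A E Wd c k, (e.1 ∈ gr Q E Wd c k ∧ e.2 ∈ A) ∧ (e.2, e.1) ∈ E ∧
      Wd (e.2, e.1) ≠ k.1 ∧ th E Wd (c, e.1) ≤ th E Wd (e.2, e.1) := by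
    intro e he
    unfold pr at he
    rw [mem_filter, mem_product] at he
    exact he
  have hE3 : ∀ e ∈ E, Wd e ∈ W ∧ e.1.1 ≠ e.2.1 ∧ sl e.1 e.2 ∈ I (Wd e) := fun e he =>
    ⟨(hE e he).2.2.1, (hE e he).2.2.2.2⟩
  have hm0 : en E Wd k ∈ I k.1 := by
    have h1 := hgr z0 hz0
    rw [← h1.2.2]
    unfold en
    split_ifs
    · exact t1_mem (fun e he => (hE3 e he).2.2) h1.2.1
    · exact t2_mem (fun e he => (hE3 e he).2.2) h1.2.1
  have hside : (∀ z ∈ gr Q E Wd c k, c.1 < z.1) ∨ ∀ z ∈ gr Q E Wd c k, z.1 < c.1 := by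
    have h2 : ∀ z ∈ gr Q E Wd c k, k.2.2 = decide (c.1 < z.1) := by
      intro z hz
      rw [← (hgr z hz).2.2]
      rfl
    rcases hkb : k.2.2 with _ | _
    · right
      intro z hz
      have h3 := h2 z hz
      rw [hkb] at h3
      have h4 : ¬ c.1 < z.1 := of_decide_eq_false h3.symm
      exact lt_of_le_of_ne (not_lt.1 h4) (Ne.symm (hE _ (hgr z hz).2.1).2.2.2.2.1)
    · left
      intro z hz
      have h3 := h2 z hz
      rw [hkb] at h3
      exact of_decide_eq_true h3.symm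
  have key := hG K lam Q W I R hJ hN c k.1 (en E Wd k) hk hm0 (gr Q E Wd c k) A
    (fun z hz => by
      have h1 := hgr z hz
      refine ⟨h1.1, ?_⟩
      rw [← hkk z hz]
      exact (hE _ h1.2.1).2.2.2.2.2)
    hside (pr Q A E Wd c k) (fun e => Wd (e.2, e.1))
    (fun e he => by
      obtain ⟨⟨h1, h2⟩, h3, h4, h5⟩ := hpr e he
      have h6 := hE _ h3
      refine ⟨h1, h2, h6.2.2.1, h4, h6.2.2.2.1, Ne.symm h6.2.2.2.2.1, ?_⟩
      have h7 := proj_mem hJ.conn hE3 (hgr _ h1).2.1 h3 h5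
      rw [(hgr _ h1).2.2] at h7
      exact h7)
    L hL
    (fun z hz w hw => by
      refine le_trans ?_ (hA z (hgr z hz).1 w hw)
      apply mul_le_mul_of_nonneg_left _ (by linarith [hJ.one])
      have : ({b ∈ A | (z, b) ∈ pr Q A E Wd c k ∧ Wd (b, z) = w} : Finset Pt) ⊆
          {a ∈ A | (a, z) ∈ E ∧ Wd (a, z) = w} := by
        intro b hb
        obtain ⟨h1, h2, h3⟩ := mem_filter.1 hb
        exact mem_filter.2 ⟨h1, (hpr _ h2).2.1, h3⟩
      exact_mod_cast card_le_card this)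
    M D hM hD hMD
  exact key

/-- all the groups of a leaf -/
theorem leaf_le (hG : H410.StGroup) (hJ : JView K lam Q W I R) (hN : lam ^ 5 ≤ #Q)
    (hE : ∀ e ∈ E, e.1 ∈ A ∧ e.2 ∈ Q ∧ Wd e ∈ W ∧ e.2 ∈ R (Wd e) ∧ e.1.1 ≠ e.2.1 ∧
      sl e.1 e.2 ∈ I (Wd e)) {L : ℝ} (hL : 1 ≤ L)
    (hA : open Classical in
      ∀ z ∈ Q, ∀ w ∈ W, lam * #{a ∈ A | (a, z) ∈ E ∧ Wd (a, z) = w} ≤ L * #A)
    {M : ℕ} {D : ℝ} (hM : 1 ≤ M) (hD : 1 ≤ D) (hMD : K * L * D ^ 6 * #Q ≤ lam ^ 2 * M)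
    (c : Pt) :
    D * ((∑ k ∈ W ×ˢ (univ : Finset (Bool × Bool)), #(bad Q A E Wd M c k) : ℕ) : ℝ) ≤
      257 * #Q * #A := by
  classical
  set Ks : Finset (ℕ × Bool × Bool) := W ×ˢ (univ : Finset (Bool × Bool)) with hKs
  have h1 : ∑ k ∈ Ks, #(gr Q E Wd c k) ≤ #Q := by
    rw [← card_biUnion]
    · refine card_le_card fun z hz => ?_
      obtain ⟨k, _, hk⟩ := mem_biUnion.1 hz
      unfold gr at hk
      exact (mem_filter.1 hk).1
    · intro k _ k' _ hne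
      rw [Function.onFun, disjoint_left]
      intro z hz hz'
      unfold gr at hz hz'
      exact hne ((mem_filter.1 hz).2.2.symm.trans (mem_filter.1 hz').2.2)
  have h2 : ∑ k ∈ Ks, #{p ∈ Q | sl c p ∈ I k.1} ≤ 4 * #Q := by
    have h3 : ∑ w ∈ W, #{p ∈ Q | sl c p ∈ I w} ≤ #Q := by
      rw [← card_biUnion]
      · refine card_le_card fun z hz => ?_
        obtain ⟨k, _, hk⟩ := mem_biUnion.1 hz
        exact (mem_filter.1 hk).1
      · intro w hw w' hw' hne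
        rw [Function.onFun, disjoint_left]
        intro z hz hz'
        exact Set.disjoint_left.1 (hJ.disj w hw w' hw' hne) (mem_filter.1 hz).2
          (mem_filter.1 hz').2
    rw [hKs, sum_product]
    calc ∑ w ∈ W, ∑ _x ∈ (univ : Finset (Bool × Bool)), #{p ∈ Q | sl c p ∈ I w}
        = ∑ w ∈ W, 4 * #{p ∈ Q | sl c p ∈ I w} := by
          refine sum_congr rfl fun w _ => ?_
          rw [sum_const, smul_eq_mul]
          rfl
      _ = 4 * ∑ w ∈ W, #{p ∈ Q | sl c p ∈ I w} := by rw [mul_sum]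
      _ ≤ 4 * #Q := Nat.mul_le_mul_left _ h3
  have h3 : ∀ k ∈ Ks, D * (#(bad Q A E Wd M c k) : ℝ) ≤
      (253 * #(gr Q E Wd c k) + #{p ∈ Q | sl c p ∈ I k.1}) * #A := by
    intro k hk
    exact group_le hG hJ hN hE hL hA hM hD hMD c k (mem_product.1 hk).1
  have h4 : (∑ k ∈ Ks, (#(gr Q E Wd c k) : ℝ)) ≤ #Q := by exact_mod_cast h1
  have h5 : (∑ k ∈ Ks, (#{p ∈ Q | sl c p ∈ I k.1} : ℝ)) ≤ 4 * #Q := by exact_mod_cast h2
  calc D * ((∑ k ∈ Ks, #(bad Q A E Wd M c k) : ℕ) : ℝ)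
      = ∑ k ∈ Ks, D * (#(bad Q A E Wd M c k) : ℝ) := by
        push_cast
        rw [mul_sum]
    _ ≤ ∑ k ∈ Ks, (253 * #(gr Q E Wd c k) + (#{p ∈ Q | sl c p ∈ I k.1} : ℝ)) * #A :=
        sum_le_sum h3
    _ = (253 * ∑ k ∈ Ks, (#(gr Q E Wd c k) : ℝ) +
          ∑ k ∈ Ks, (#{p ∈ Q | sl c p ∈ I k.1} : ℝ)) * #A := by
        rw [← sum_mul, sum_add_distrib, ← mul_sum]
    _ ≤ (253 * #Q + 4 * #Q) * #A := by
        apply mul_le_mul_of_nonneg_right _ (Nat.cast_nonneg _)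
        linarith
    _ = 257 * #Q * #A := by ring

open Classical in
/-- the centres joined to two leaves through different windows -/
noncomputable def XX (Q : Finset Pt) (E : Finset (Pt × Pt)) (Wd : Pt × Pt → ℕ) (a b : Pt) :
    Finset Pt := {z ∈ Q | (a, z) ∈ E ∧ (b, z) ∈ E ∧ Wd (a, z) ≠ Wd (b, z)}

open Classical in
/-- the class of a centre -/
noncomputable def cls (E : Finset (Pt × Pt)) (Wd : Pt × Pt → ℕ) (a b z : Pt) :
    Bool × Bool × Bool :=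
  if th E Wd (a, z) ≤ th E Wd (b, z) then (true, bb E Wd (a, z), decide (a.1 < z.1))
  else (false, bb E Wd (b, z), decide (b.1 < z.1))

open Classical in
/-- the centres of large classes -/
noncomputable def YL (Q : Finset Pt) (E : Finset (Pt × Pt)) (Wd : Pt × Pt → ℕ) (M : ℕ)
    (a b : Pt) : Finset Pt :=
  {z ∈ XX Q E Wd a b | M ≤ #{y ∈ XX Q E Wd a b |
    (Wd (a, y), Wd (b, y)) = (Wd (a, z), Wd (b, z)) ∧ cls E Wd a b y = cls E Wd a b z}}

theorem cls_true {a b z : Pt} (h : th E Wd (a, z) ≤ th E Wd (b, z)) :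
    cls E Wd a b z = (true, bb E Wd (a, z), decide (a.1 < z.1)) := by
  unfold cls
  rw [if_pos h]

theorem cls_false {a b z : Pt} (h : ¬ th E Wd (a, z) ≤ th E Wd (b, z)) :
    cls E Wd a b z = (false, bb E Wd (b, z), decide (b.1 < z.1)) := by
  unfold cls
  rw [if_neg h]

theorem mem_XX {a b z : Pt} : z ∈ XX Q E Wd a b ↔
    z ∈ Q ∧ (a, z) ∈ E ∧ (b, z) ∈ E ∧ Wd (a, z) ≠ Wd (b, z) := by
  classical
  unfold XX
  rw [mem_filter]

/-- first half -/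
theorem mem_bad1 {M : ℕ} {a b z : Pt} (hb : b ∈ A) (hz : z ∈ YL Q E Wd M a b)
    (hth : th E Wd (a, z) ≤ th E Wd (b, z)) : (z, b) ∈ bad Q A E Wd M a (key E Wd (a, z)) := by
  classical
  unfold YL at hz
  obtain ⟨hzX, hM⟩ := mem_filter.1 hz
  obtain ⟨h1, h2, h3, h4⟩ := mem_XX.1 hzX
  have hpr : ∀ y : Pt, y ∈ XX Q E Wd a b → key E Wd (a, y) = key E Wd (a, z) →
      th E Wd (a, y) ≤ th E Wd (b, y) → y ∈ gr Q E Wd a (key E Wd (a, z)) ∧
        (y, b) ∈ pr Q A E Wd a (key E Wd (a, z)) := by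
    intro y hy hk ht
    obtain ⟨g1, g2, g3, g4⟩ := mem_XX.1 hy
    have g5 : y ∈ gr Q E Wd a (key E Wd (a, z)) := by
      unfold gr
      exact mem_filter.2 ⟨g1, g2, hk⟩
    refine ⟨g5, ?_⟩
    unfold pr
    refine mem_filter.2 ⟨mem_product.2 ⟨g5, hb⟩, g3, ?_, ht⟩
    rw [← hk]
    exact Ne.symm g4
  unfold bad
  refine mem_filter.2 ⟨(hpr z hzX rfl hth).2, hM.trans (card_le_card fun y hy => ?_)⟩
  obtain ⟨hyX, hyl, hyc⟩ := mem_filter.1 hy
  rw [Prod.mk.injEq] at hyl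
  by_cases hthy : th E Wd (a, y) ≤ th E Wd (b, y)
  · rw [cls_true hth, cls_true hthy] at hyc
    have hk : key E Wd (a, y) = key E Wd (a, z) := by
      unfold key
      simp only [Prod.mk.injEq, true_and] at hyc ⊢
      exact ⟨hyl.1, hyc.1, hyc.2⟩
    have h5 := hpr y hyX hk hthy
    exact mem_filter.2 ⟨h5.1, h5.2, hyl.2⟩
  · rw [cls_true hth, cls_false hthy] at hyc
    simp at hyc

/-- second half -/
theorem mem_bad2 {M : ℕ} {a b z : Pt} (ha : a ∈ A) (hz : z ∈ YL Q E Wd M a b)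
    (hth : ¬ th E Wd (a, z) ≤ th E Wd (b, z)) :
    (z, a) ∈ bad Q A E Wd M b (key E Wd (b, z)) := by
  classical
  unfold YL at hz
  obtain ⟨hzX, hM⟩ := mem_filter.1 hz
  obtain ⟨h1, h2, h3, h4⟩ := mem_XX.1 hzX
  have hpr : ∀ y : Pt, y ∈ XX Q E Wd a b → key E Wd (b, y) = key E Wd (b, z) →
      ¬ th E Wd (a, y) ≤ th E Wd (b, y) → y ∈ gr Q E Wd b (key E Wd (b, z)) ∧
        (y, a) ∈ pr Q A E Wd b (key E Wd (b, z)) := by
    intro y hy hk ht
    obtain ⟨g1, g2, g3, g4⟩ := mem_XX.1 hy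
    have g5 : y ∈ gr Q E Wd b (key E Wd (b, z)) := by
      unfold gr
      exact mem_filter.2 ⟨g1, g3, hk⟩
    refine ⟨g5, ?_⟩
    unfold pr
    refine mem_filter.2 ⟨mem_product.2 ⟨g5, ha⟩, g2, ?_, (not_le.1 ht).le⟩
    rw [← hk]
    exact g4
  unfold bad
  refine mem_filter.2 ⟨(hpr z hzX rfl hth).2, hM.trans (card_le_card fun y hy => ?_)⟩
  obtain ⟨hyX, hyl, hyc⟩ := mem_filter.1 hy
  rw [Prod.mk.injEq] at hyl
  by_cases hthy : th E Wd (a, y) ≤ th E Wd (b, y)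
  · rw [cls_false hth, cls_true hthy] at hyc
    simp at hyc
  · rw [cls_false hth, cls_false hthy] at hyc
    have hk : key E Wd (b, y) = key E Wd (b, z) := by
      unfold key
      simp only [Prod.mk.injEq, true_and] at hyc ⊢
      exact ⟨hyl.2, hyc.1, hyc.2⟩
    have h5 := hpr y hyX hk hthy
    exact mem_filter.2 ⟨h5.1, h5.2, hyl.1⟩

theorem sum_le_pairs (F : Pt → Finset Pt) (B : Finset (Pt × Pt))
    (h : ∀ b ∈ A, ∀ z ∈ F b, (z, b) ∈ B) : ∑ b ∈ A, #(F b) ≤ #B := by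
  classical
  have h1 : ∀ b ∈ A, #(F b) = #((F b).image fun z => (z, b)) := by
    intro b _
    rw [card_image_of_injective]
    intro z z' hz
    exact (Prod.mk.inj hz).1
  rw [sum_congr rfl h1, ← card_biUnion]
  · refine card_le_card fun e he => ?_
    obtain ⟨b, hb, he'⟩ := mem_biUnion.1 he
    obtain ⟨z, hz, rfl⟩ := mem_image.1 he'
    exact h b hb z hz
  · intro b _ b' _ hne
    rw [Function.onFun, disjoint_left]
    intro e he he'
    obtain ⟨z, _, rfl⟩ := mem_image.1 he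
    obtain ⟨z', _, h2⟩ := mem_image.1 he'
    exact hne (Prod.mk.inj h2).2.symm

/-- the large classes -/
theorem sum_YL (hG : H410.StGroup) (hJ : JView K lam Q W I R) (hN : lam ^ 5 ≤ #Q)
    (hE : ∀ e ∈ E, e.1 ∈ A ∧ e.2 ∈ Q ∧ Wd e ∈ W ∧ e.2 ∈ R (Wd e) ∧ e.1.1 ≠ e.2.1 ∧
      sl e.1 e.2 ∈ I (Wd e)) {L : ℝ} (hL : 1 ≤ L)
    (hA : open Classical in
      ∀ z ∈ Q, ∀ w ∈ W, lam * #{a ∈ A | (a, z) ∈ E ∧ Wd (a, z) = w} ≤ L * #A)
    {M : ℕ} {D : ℝ} (hM : 1 ≤ M) (hD : 1 ≤ D) (hMD : K * L * D ^ 6 * #Q ≤ lam ^ 2 * M) :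
    D * ((∑ a ∈ A, ∑ b ∈ A, #(YL Q E Wd M a b) : ℕ) : ℝ) ≤ 514 * #A ^ 2 * #Q := by
  classical
  set Ks : Finset (ℕ × Bool × Bool) := W ×ˢ (univ : Finset (Bool × Bool)) with hKs
  set G : Pt → ℕ := fun c => ∑ k ∈ Ks, #(bad Q A E Wd M c k) with hGdef
  have hkeyW : ∀ e ∈ E, key E Wd e ∈ Ks := by
    intro e he
    rw [hKs, mem_product]
    exact ⟨(hE e he).2.2.1, mem_univ _⟩
  have h1 : ∀ a ∈ A, ∑ b ∈ A, #{z ∈ YL Q E Wd M a b | th E Wd (a, z) ≤ th E Wd (b, z)} ≤ G a := by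
    intro a _
    refine (sum_le_pairs (fun b => {z ∈ YL Q E Wd M a b | th E Wd (a, z) ≤ th E Wd (b, z)})
      (Ks.biUnion fun k => bad Q A E Wd M a k) ?_).trans card_biUnion_le
    intro b hb z hz
    obtain ⟨hz1, hz2⟩ := mem_filter.1 hz
    rw [mem_biUnion]
    refine ⟨key E Wd (a, z), hkeyW _ ?_, mem_bad1 hb hz1 hz2⟩
    unfold YL at hz1
    exact (mem_XX.1 (mem_filter.1 hz1).1).2.1
  have h2 : ∀ b ∈ A, ∑ a ∈ A, #{z ∈ YL Q E Wd M a b | ¬ th E Wd (a, z) ≤ th E Wd (b, z)} ≤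
      G b := by
    intro b _
    refine (sum_le_pairs (fun a => {z ∈ YL Q E Wd M a b | ¬ th E Wd (a, z) ≤ th E Wd (b, z)})
      (Ks.biUnion fun k => bad Q A E Wd M b k) ?_).trans card_biUnion_le
    intro a ha z hz
    obtain ⟨hz1, hz2⟩ := mem_filter.1 hz
    rw [mem_biUnion]
    refine ⟨key E Wd (b, z), hkeyW _ ?_, mem_bad2 ha hz1 hz2⟩
    unfold YL at hz1
    exact (mem_XX.1 (mem_filter.1 hz1).1).2.2.1
  have h3 : ∑ a ∈ A, ∑ b ∈ A, #(YL Q E Wd M a b) ≤ ∑ a ∈ A, G a + ∑ b ∈ A, G b := by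
    have e1 : ∀ a b : Pt, #(YL Q E Wd M a b) =
        #{z ∈ YL Q E Wd M a b | th E Wd (a, z) ≤ th E Wd (b, z)} +
        #{z ∈ YL Q E Wd M a b | ¬ th E Wd (a, z) ≤ th E Wd (b, z)} := fun a b =>
      (card_filter_add_card_filter_not _).symm
    calc ∑ a ∈ A, ∑ b ∈ A, #(YL Q E Wd M a b)
        = ∑ a ∈ A, ∑ b ∈ A, #{z ∈ YL Q E Wd M a b | th E Wd (a, z) ≤ th E Wd (b, z)} +
          ∑ a ∈ A, ∑ b ∈ A, #{z ∈ YL Q E Wd M a b | ¬ th E Wd (a, z) ≤ th E Wd (b, z)} := by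
          rw [← sum_add_distrib]
          refine sum_congr rfl fun a _ => ?_
          rw [← sum_add_distrib]
          exact sum_congr rfl fun b _ => e1 a b
      _ ≤ _ := by
          refine Nat.add_le_add (sum_le_sum h1) ?_
          rw [sum_comm]
          exact sum_le_sum h2
  have h4 : ∀ c ∈ A, D * (G c : ℝ) ≤ 257 * #Q * #A := by
    intro c _
    exact leaf_le hG hJ hN hE hL hA hM hD hMD c
  have h5 : D * ∑ c ∈ A, (G c : ℝ) ≤ #A * (257 * #Q * #A) := by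
    rw [mul_sum, ← nsmul_eq_mul, ← sum_const]
    exact sum_le_sum h4
  have h6 : ((∑ a ∈ A, ∑ b ∈ A, #(YL Q E Wd M a b) : ℕ) : ℝ) ≤ 2 * ∑ c ∈ A, (G c : ℝ) := by
    have : ((∑ a ∈ A, ∑ b ∈ A, #(YL Q E Wd M a b) : ℕ) : ℝ) ≤
        ((∑ a ∈ A, G a + ∑ b ∈ A, G b : ℕ) : ℝ) := by exact_mod_cast h3
    push_cast at this ⊢
    linarith
  calc D * ((∑ a ∈ A, ∑ b ∈ A, #(YL Q E Wd M a b) : ℕ) : ℝ) ≤ D * (2 * ∑ c ∈ A, (G c : ℝ)) :=
        mul_le_mul_of_nonneg_left h6 (by linarith)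
    _ = 2 * (D * ∑ c ∈ A, (G c : ℝ)) := by ring
    _ ≤ 2 * (#A * (257 * #Q * #A)) := by linarith
    _ = 514 * #A ^ 2 * #Q := by ring

/-- **LEMMA M** from its one-group form -/
theorem stMult_of (hG : H410.StGroup) : H410.StMult := by
  classical
  intro K lam Q W I R hJ hN A E Wd hE L hL hA M D hM hD hMD
  have hY := sum_YL hG hJ hN hE hL hA hM hD hMD
  set T : Finset (Pt × Pt × Pt) := {t ∈ A ×ˢ A ×ˢ Q | (t.1, t.2.2) ∈ E ∧ (t.2.1, t.2.2) ∈ E ∧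
        Wd (t.1, t.2.2) ≠ Wd (t.2.1, t.2.2) ∧
        16 * M ≤ #{z ∈ Q | (t.1, z) ∈ E ∧ (t.2.1, z) ∈ E ∧
          Wd (t.1, z) = Wd (t.1, t.2.2) ∧ Wd (t.2.1, z) = Wd (t.2.1, t.2.2)}} with hT
  have h1 : #T ≤ ∑ a ∈ A, ∑ b ∈ A, 2 * #(YL Q E Wd M a b) := by
    have e1 : #T = ∑ a ∈ A, ∑ b ∈ A, #{z ∈ Q | (a, b, z) ∈ T} := by
      have e2 : #T = ∑ t ∈ A ×ˢ A ×ˢ Q, if t ∈ T then 1 else 0 := by
        rw [← card_filter]
        congr 1
        ext t
        constructor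
        · intro h
          exact mem_filter.2 ⟨(mem_filter.1 (hT ▸ h)).1, h⟩
        · intro h
          exact (mem_filter.1 h).2
      rw [e2, sum_product]
      refine sum_congr rfl fun a _ => ?_
      rw [sum_product]
      refine sum_congr rfl fun b _ => ?_
      rw [card_filter]
    rw [e1]
    refine sum_le_sum fun a ha => sum_le_sum fun b hb => ?_
    have h2 := classes (XX Q E Wd a b) (fun z => (Wd (a, z), Wd (b, z))) (cls E Wd a b) M
    have h3 : Fintype.card (Bool × Bool × Bool) = 8 := rfl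
    rw [h3] at h2
    refine le_trans (card_le_card ?_) h2
    intro z hz
    obtain ⟨hzQ, hzT⟩ := mem_filter.1 hz
    rw [hT, mem_filter] at hzT
    obtain ⟨_, g1, g2, g3, g4⟩ := hzT
    simp only at g1 g2 g3 g4
    refine mem_filter.2 ⟨mem_XX.2 ⟨hzQ, g1, g2, g3⟩, ?_⟩
    refine le_trans (by omega) (g4.trans (card_le_card ?_))
    intro y hy
    obtain ⟨y1, y2, y3, y4, y5⟩ := mem_filter.1 hy
    refine mem_filter.2 ⟨mem_XX.2 ⟨y1, y2, y3, ?_⟩, ?_⟩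
    · rw [y4, y5]; exact g3
    · rw [y4, y5]
  have h2 : (#T : ℝ) ≤ 2 * ((∑ a ∈ A, ∑ b ∈ A, #(YL Q E Wd M a b) : ℕ) : ℝ) := by
    have : #T ≤ 2 * ∑ a ∈ A, ∑ b ∈ A, #(YL Q E Wd M a b) := by
      refine h1.trans (le_of_eq ?_)
      rw [mul_sum]
      refine sum_congr rfl fun a _ => ?_
      rw [mul_sum]
    exact_mod_cast this
  calc D * (#T : ℝ) ≤ D * (2 * ((∑ a ∈ A, ∑ b ∈ A, #(YL Q E Wd M a b) : ℕ) : ℝ)) :=
        mul_le_mul_of_nonneg_left h2 (by linarith)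
    _ = 2 * (D * ((∑ a ∈ A, ∑ b ∈ A, #(YL Q E Wd M a b) : ℕ) : ℝ)) := by ring
    _ ≤ 2 * (514 * #A ^ 2 * #Q) := by linarith
    _ = 1028 * #A ^ 2 * #Q := by ring

end mult

end Vale.Agent.P065.UB.H666.Mult
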