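import Vale.Agent.P065.UB.H759.PJ2
import Vale.Agent.P065.UB.View.Star
import Vale.Agent.P065.UB.View.Rich
import Vale.Agent.P065.U.H792.Front
import Vale.Agent.P065.H537.JoinV

/-!
# P065, upper bound, line P: the block [P-J], proof (helper666)

`stPJ : H759.StPJ`.  Points of high degree, joined pairs from `joinV` (helper537), pruned; (STAR)
from `star_one` (helpers 616, 882).
-/

set_option autoImplicit false

namespace Vale.Agent.P065.UB.H666

open Finset Vale.Agent.P065.UB Vale.Agent.P065.UB.RankAux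

section window

open Classical in
/-- the points of high degree of one window -/
noncomputable def Hi (P : Finset Pt) (k : ℕ) (Q : Finset Pt) (I : Set ℝ) (T : Finset Pt)
    (D : ℝ) : Finset Pt := {p ∈ T | D ≤ View.dg P k Q I p}

/-- arithmetic of one window -/
theorem win_arith {C K x y E F B S : ℝ} (hK : 2 ≤ K) (hC : 1 ≤ C) (hy : 0 < y)
    (hxy : y ^ 3 = x) (hE : x * y ≤ K * E) (hF : E ≤ F + x * y / (2 * K)) 
    (hB0 : 0 ≤ B) (hB : B ≤ 2 * K * x) (hJ : F ^ 6 ≤ C * B ^ 6 * (S + 1)) (hS : 0 ≤ S)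
    (hx : 8192 * C * K ^ 12 ≤ x ^ 2) : x ^ 2 ≤ 8192 * C * K ^ 12 * S := by
  have hK0 : 0 < K := by linarith
  have hx0 : 0 < x := by rw [← hxy]; positivity
  have h1 : x * y / (2 * K) ≤ F := by
    have h2 : x * y / (2 * K) * 2 = x * y / K := by field_simp
    have h3 : x * y / K ≤ E := by
      rw [div_le_iff₀ hK0]
      linarith
    linarith
  have h2 : (x * y / (2 * K)) ^ 6 ≤ C * (2 * K * x) ^ 6 * (S + 1) := by
    calc (x * y / (2 * K)) ^ 6 ≤ F ^ 6 := pow_le_pow_left₀ (by positivity) h1 6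
      _ ≤ C * B ^ 6 * (S + 1) := hJ
      _ ≤ C * (2 * K * x) ^ 6 * (S + 1) := by
        apply mul_le_mul_of_nonneg_right _ (by linarith)
        apply mul_le_mul_of_nonneg_left _ (by linarith)
        exact pow_le_pow_left₀ hB0 hB 6
  have h3 : (x * y / (2 * K)) ^ 6 = x ^ 8 / (64 * K ^ 6) := by
    have : (x * y / (2 * K)) ^ 6 = x ^ 6 * (y ^ 3) ^ 2 / (64 * K ^ 6) := by
      rw [div_pow]; ring
    rw [this, hxy]
    ring
  rw [h3, div_le_iff₀ (by positivity)] at h2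
  have h4 : x ^ 2 * x ^ 6 ≤ (4096 * C * K ^ 12 * (S + 1)) * x ^ 6 := by
    calc x ^ 2 * x ^ 6 = x ^ 8 := by ring
      _ ≤ _ := h2
      _ = _ := by ring
  have h5 : x ^ 2 ≤ 4096 * C * K ^ 12 * (S + 1) :=
    le_of_mul_le_mul_right h4 (by positivity)
  linarith

/-- one window: the points of high degree have many pairs with slope in the window -/
theorem win_M : ∃ C : ℝ, 1 ≤ C ∧ ∀ (P : Finset Pt) (k : ℕ) (Q : Finset Pt) (I : Set ℝ)
    (T : Finset Pt) (E : Finset (Pt × Pt)) (K x : ℝ), Good P → Q ⊆ P → I.OrdConnected →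
    2 ≤ K → 1 ≤ x → C * K ^ 12 ≤ x ^ 2 → (#(Tch P k Q I) : ℝ) ≤ K * x →
    (#(EdBd P k Q I) : ℝ) ≤ K * x → T ⊆ Tch P k Q I → E ⊆ EdIn P k Q I →
    (∀ e ∈ E, e.1 ∈ T ∧ e.2 ∈ T) → x ^ (4 / 3 : ℝ) ≤ K * #E →
    x ^ 2 ≤ C * K ^ 12 * #(Sw (Hi P k Q I T (x ^ (1 / 3 : ℝ) / (2 * K ^ 2))) I) := by
  classical
  obtain ⟨C, hC, hj⟩ := H537.joinV
  refine ⟨8192 * C, by linarith, ?_⟩
  intro P k Q I T E K x hP hQ hI hK hx hx2 hT hB hTT hE hET hEc
  have hK0 : 0 < K := by linarith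
  have hx0 : 0 < x := by linarith
  set y : ℝ := x ^ (1 / 3 : ℝ) with hy
  have hy0 : 0 < y := Real.rpow_pos_of_pos hx0 _
  have hy3 : y ^ 3 = x := by
    rw [hy, ← Real.rpow_natCast, ← Real.rpow_mul hx0.le]
    norm_num
  set D : ℝ := y / (2 * K ^ 2) with hD
  have hD0 : 0 ≤ D := by positivity
  set M := Hi P k Q I T D with hM
  have hMT : M ⊆ T := Finset.filter_subset _ _
  set Lo : Finset Pt := T \ M with hLo
  have hlow : ∀ z ∈ Lo, (View.dg P k Q I z : ℝ) ≤ D := by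
    intro z hz
    rw [hLo, mem_sdiff] at hz
    by_contra hcon
    exact hz.2 (mem_filter.2 ⟨hz.1, (not_le.1 hcon).le⟩)
  have h1 := View.low_edges P k Q I Lo D hlow
  set F : Finset (Pt × Pt) := {e ∈ E | e.1 ∈ M ∧ e.2 ∈ M} with hF
  have hFI : F ⊆ EdIn P k Q I := (filter_subset _ _).trans hE
  have hsub : E ⊆ F ∪ {e ∈ EdIn P k Q I | e.1 ∈ Lo ∨ e.2 ∈ Lo} := by
    intro e he
    have h2 := hET e he
    rw [mem_union, hF, mem_filter, mem_filter]
    by_cases ha : e.1 ∈ M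
    · by_cases hb : e.2 ∈ M
      · exact Or.inl ⟨he, ha, hb⟩
      · exact Or.inr ⟨hE he, Or.inr (mem_sdiff.2 ⟨h2.2, hb⟩)⟩
    · exact Or.inr ⟨hE he, Or.inl (mem_sdiff.2 ⟨h2.1, ha⟩)⟩
  have h2 : (#E : ℝ) ≤ #F + #{e ∈ EdIn P k Q I | e.1 ∈ Lo ∨ e.2 ∈ Lo} := by
    exact_mod_cast (card_le_card hsub).trans (card_union_le _ _)
  have hLc : (#Lo : ℝ) ≤ K * x := by
    have : (#Lo : ℝ) ≤ #(Tch P k Q I) := by
      exact_mod_cast card_le_card (sdiff_subset.trans hTT)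
    linarith
  have h3 : (#Lo : ℝ) * D ≤ x * y / (2 * K) := by
    calc (#Lo : ℝ) * D ≤ (K * x) * D := mul_le_mul_of_nonneg_right hLc hD0
      _ = x * y / (2 * K) := by rw [hD]; field_simp
  have h4 := hj P k Q I hP hQ hI M (hMT.trans hTT) F hFI
    (fun e he => Or.inl (mem_filter.1 he).2.1)
  have h43 : x ^ (4 / 3 : ℝ) = x * y := H616.rp43 hx0
  rw [h43] at hEc
  exact win_arith (C := C) (B := (#(Tch P k Q I) : ℝ) + #(EdBd P k Q I)) hK hC hy0 hy3 hEc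
    (by linarith) (by positivity) (by linarith) h4 (Nat.cast_nonneg _) hx2

end window

section pairs

/-- pairwise disjoint subsets -/
theorem sum_card_le' {ι α : Type*} [DecidableEq α] (W : Finset ι) (F : ι → Finset α)
    (A : Finset α) (h1 : ∀ w ∈ W, F w ⊆ A)
    (h2 : ∀ w ∈ W, ∀ w' ∈ W, w ≠ w' → Disjoint (F w) (F w')) : ∑ w ∈ W, #(F w) ≤ #A := by
  rw [← Finset.card_biUnion h2]
  apply Finset.card_le_card
  intro x hx
  obtain ⟨w, hw, hxw⟩ := Finset.mem_biUnion.1 hx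
  exact h1 w hw hxw

open Classical in
/-- the ordered pairs of `M` with slope in `I` -/
noncomputable def JJ (M : Finset Pt) (I : Set ℝ) : Finset (Pt × Pt) :=
  {e ∈ M ×ˢ M | e.1.1 ≠ e.2.1 ∧ sl e.1 e.2 ∈ I}

theorem mem_JJ {M : Finset Pt} {I : Set ℝ} {e : Pt × Pt} :
    e ∈ JJ M I ↔ (e.1 ∈ M ∧ e.2 ∈ M) ∧ e.1.1 ≠ e.2.1 ∧ sl e.1 e.2 ∈ I := by
  classical
  unfold JJ
  rw [mem_filter, mem_product]

theorem JJ_swap {M : Finset Pt} {I : Set ℝ} {e : Pt × Pt} (he : e ∈ JJ M I) :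
    e.swap ∈ JJ M I := by
  rw [mem_JJ] at he ⊢
  refine ⟨⟨he.1.2, he.1.1⟩, he.2.1.symm, ?_⟩
  have := he.2.2
  rw [View.sl_symm] at this
  exact this

theorem card_Sw_le_JJ (M : Finset Pt) (I : Set ℝ) : #(Sw M I) ≤ #(JJ M I) := by
  classical
  refine card_le_card fun e he => ?_
  simp only [Sw, mem_filter, mem_product] at he
  exact mem_JJ.2 ⟨he.1, he.2.1.ne, he.2.2⟩

open Classical in
/-- the points with many partners -/
noncomputable def YY (M : Finset Pt) (I : Set ℝ) (θ : ℝ) : Finset Pt :=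
  {p ∈ M | θ ≤ #{e ∈ JJ M I | e.1 = p}}

open Classical in
/-- the pruned pairs -/
noncomputable def PP (M : Finset Pt) (I : Set ℝ) (θ : ℝ) : Finset (Pt × Pt) :=
  {e ∈ JJ M I | e.1 ∈ YY M I θ ∧ e.2 ∈ YY M I θ}

theorem prune (M : Finset Pt) (I : Set ℝ) {θ : ℝ} (hθ : 0 ≤ θ) :
    (#(JJ M I) : ℝ) ≤ #(PP M I θ) + 2 * θ * #M := by
  classical
  set Y := YY M I θ with hY
  set A : Finset (Pt × Pt) := {e ∈ JJ M I | e.1 ∉ Y} with hA
  set B : Finset (Pt × Pt) := {e ∈ JJ M I | e.2 ∉ Y} with hB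
  have hAB : #B ≤ #A := by
    refine card_le_card_of_injOn Prod.swap ?_ Prod.swap_injective.injOn
    intro e he
    have he' := mem_filter.1 (mem_coe.1 he)
    exact mem_coe.2 (mem_filter.2 ⟨JJ_swap he'.1, he'.2⟩)
  have hAc : (#A : ℝ) ≤ θ * #M := by
    have h1 : #A = ∑ p ∈ M, #{e ∈ A | e.1 = p} := by
      apply card_eq_sum_card_fiberwise
      intro e he
      have he' := mem_filter.1 (mem_coe.1 he)
      exact mem_coe.2 (mem_JJ.1 he'.1).1.1
    have h2 : ∀ p ∈ M, (#{e ∈ A | e.1 = p} : ℝ) ≤ θ := by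
      intro p hp
      by_cases hpY : p ∈ Y
      · have : ({e ∈ A | e.1 = p} : Finset (Pt × Pt)) = ∅ := by
          rw [filter_eq_empty_iff]
          intro e he hep
          exact (mem_filter.1 he).2 (hep ▸ hpY)
        rw [this]
        simpa using hθ
      · have h3 : ¬ θ ≤ (#{e ∈ JJ M I | e.1 = p} : ℝ) := fun h => hpY (mem_filter.2 ⟨hp, h⟩)
        have h4 : (#{e ∈ A | e.1 = p} : ℝ) ≤ #{e ∈ JJ M I | e.1 = p} := by
          exact_mod_cast card_le_card (filter_subset_filter _ (filter_subset _ _))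
        linarith [not_le.1 h3]
    calc (#A : ℝ) = ∑ p ∈ M, (#{e ∈ A | e.1 = p} : ℝ) := by rw [h1]; push_cast; rfl
      _ ≤ ∑ p ∈ M, θ := sum_le_sum h2
      _ = θ * #M := by rw [sum_const, nsmul_eq_mul]; ring
  have hsub : JJ M I ⊆ PP M I θ ∪ (A ∪ B) := by
    intro e he
    rw [mem_union, mem_union]
    by_cases h1 : e.1 ∈ Y
    · by_cases h2 : e.2 ∈ Y
      · exact Or.inl (mem_filter.2 ⟨he, h1, h2⟩)
      · exact Or.inr (Or.inr (mem_filter.2 ⟨he, h2⟩))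
    · exact Or.inr (Or.inl (mem_filter.2 ⟨he, h1⟩))
  have h1 : (#(JJ M I) : ℝ) ≤ #(PP M I θ) + (#A + #B) := by
    exact_mod_cast (card_le_card hsub).trans ((card_union_le _ _).trans
      (Nat.add_le_add_left (card_union_le _ _) _))
  have h2 : (#B : ℝ) ≤ #A := by exact_mod_cast hAB
  linarith

/-- few windows touch a point -/
theorem touch_le {ι : Type*} (W : Finset ι) (I : ι → Set ℝ) (M : ι → Finset Pt) {Q : Finset Pt}
    {θ : ℝ} (hI : ∀ w ∈ W, ∀ w' ∈ W, w ≠ w' → Disjoint (I w) (I w')) (hM : ∀ w ∈ W, M w ⊆ Q)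
    (q : Pt) (D : Finset ι) (hD : ∀ w ∈ D, w ∈ W ∧ q ∈ YY (M w) (I w) θ) :
    (#D : ℝ) * θ ≤ #Q := by
  classical
  have h1 : ∀ w ∈ D, θ ≤ (#(({e ∈ JJ (M w) (I w) | e.1 = q} : Finset (Pt × Pt)).image
      Prod.snd) : ℝ) := by
    intro w hw
    rw [card_image_of_injOn]
    · exact (mem_filter.1 (hD w hw).2).2
    · intro e he e' he' h
      have h1 := (mem_filter.1 (mem_coe.1 he)).2
      have h2 := (mem_filter.1 (mem_coe.1 he')).2
      exact Prod.ext (h1.trans h2.symm) h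
  have h2 : ∑ w ∈ D, #(({e ∈ JJ (M w) (I w) | e.1 = q} : Finset (Pt × Pt)).image Prod.snd) ≤
      #Q := by
    apply sum_card_le'
    · intro w hw z hz
      rw [mem_image] at hz
      obtain ⟨e, he, rfl⟩ := hz
      exact hM w (hD w hw).1 (mem_JJ.1 (mem_filter.1 he).1).1.2
    · intro w hw w' hw' hne
      rw [disjoint_left]
      intro z hz hz'
      rw [mem_image] at hz hz'
      obtain ⟨e, he, rfl⟩ := hz
      obtain ⟨e', he', h⟩ := hz'
      rw [mem_filter] at he he'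
      have h1 := (mem_JJ.1 he.1).2.2
      have h2 := (mem_JJ.1 he'.1).2.2
      rw [he'.2, h] at h2
      rw [he.2] at h1
      exact Set.disjoint_left.1 (hI w (hD w hw).1 w' (hD w' hw').1 hne) h1 h2
  calc (#D : ℝ) * θ = ∑ w ∈ D, θ := by rw [sum_const, nsmul_eq_mul]
    _ ≤ ∑ w ∈ D, (#(({e ∈ JJ (M w) (I w) | e.1 = q} : Finset (Pt × Pt)).image
      Prod.snd) : ℝ) := sum_le_sum h1
    _ ≤ #Q := by exact_mod_cast h2

/-- total number of pairs -/
theorem sum_PP_le {ι : Type*} (W : Finset ι) (I : ι → Set ℝ) (M : ι → Finset Pt) {Q : Finset Pt}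
    {θ : ℝ} (hI : ∀ w ∈ W, ∀ w' ∈ W, w ≠ w' → Disjoint (I w) (I w')) (hM : ∀ w ∈ W, M w ⊆ Q) :
    ∑ w ∈ W, #(PP (M w) (I w) θ) ≤ #Q ^ 2 := by
  classical
  rw [sq, ← card_product]
  apply sum_card_le'
  · intro w hw e he
    have h1 := (mem_JJ.1 (mem_filter.1 he).1).1
    exact mem_product.2 ⟨hM w hw h1.1, hM w hw h1.2⟩
  · intro w hw w' hw' hne
    rw [disjoint_left]
    intro e he he'
    exact Set.disjoint_left.1 (hI w hw w' hw' hne) (mem_JJ.1 (mem_filter.1 he).1).2.2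
      (mem_JJ.1 (mem_filter.1 he').1).2.2

end pairs

section params

/-- the chain of the losses -/
theorem par {c : ℕ} {K Kp ks Kpp L : ℝ} (hc : 2 ≤ c) (hK : 2 ≤ K) (h1 : K ^ c ≤ Kp)
    (h2 : 0 < ks) (h3 : Kp ^ c * ks ≤ 1) (h4 : 1 ≤ ks * Kpp) (h5 : Kpp ^ c ≤ L) :
    0 < Kp ∧ 0 < Kpp ∧ 2 * Kp ≤ L ∧ 2 * Kpp ≤ L ∧ K ^ c ≤ L := by
  have hK1 : 1 ≤ K := by linarith
  have hKp : 2 ≤ Kp := by
    calc (2 : ℝ) ≤ K := hK
      _ = K ^ 1 := (pow_one K).symm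
      _ ≤ K ^ c := pow_le_pow_right₀ hK1 (by omega)
      _ ≤ Kp := h1
  have hKpp0 : 0 < Kpp := by
    by_contra h
    have : ks * Kpp ≤ 0 := mul_nonpos_of_nonneg_of_nonpos h2.le (not_lt.1 h)
    linarith
  have hKpc : Kp ^ c ≤ Kpp := by
    have hpos : 0 ≤ Kp ^ c := by positivity
    calc Kp ^ c = Kp ^ c * 1 := (mul_one _).symm
      _ ≤ Kp ^ c * (ks * Kpp) := mul_le_mul_of_nonneg_left h4 hpos
      _ = (Kp ^ c * ks) * Kpp := by ring
      _ ≤ 1 * Kpp := mul_le_mul_of_nonneg_right h3 hKpp0.le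
      _ = Kpp := one_mul _
  have hKpKpp : Kp ≤ Kpp := by
    calc Kp = Kp ^ 1 := (pow_one Kp).symm
      _ ≤ Kp ^ c := pow_le_pow_right₀ (by linarith) (by omega)
      _ ≤ Kpp := hKpc
  have hL : 2 * Kpp ≤ L := by
    calc 2 * Kpp ≤ Kpp * Kpp := mul_le_mul_of_nonneg_right (by linarith) hKpp0.le
      _ = Kpp ^ 2 := (sq Kpp).symm
      _ ≤ Kpp ^ c := pow_le_pow_right₀ (by linarith) hc
      _ ≤ L := h5
  refine ⟨by linarith, hKpp0, by linarith, hL, ?_⟩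
  linarith

end params

section star

/-- arithmetic of (STAR): the second term is absorbed -/
theorem star_arith {t m : ℕ} {K L lam N q r x S LC : ℝ} (hK : 2 ≤ K) (hL : 1 < L)
    (hKL : K ≤ L) (hN0 : 0 < N) (hN : lam ^ 5 ≤ N) (hlam0 : 0 < lam)
    (hx : x = N / lam) (hLC : LC = L ^ m) (hq : N ≤ K ^ (t + 7) * q)
    (hcut : q ≤ LC * lam ^ 2 * r) (hS : 0 ≤ S)
    (hlam : L ^ (4 * t + 51 + 3 * m) ≤ lam)
    (h : r ^ 3 ≤ K ^ (t + 28) * (x * S + x ^ 2)) : r ^ 3 ≤ K ^ (t + 29) * (x * S) := by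
  have hK0 : 0 < K := by linarith
  have hL0 : 0 < L := by linarith
  have hx0 : 0 < x := by rw [hx]; positivity
  have hLC0 : 0 < LC := by rw [hLC]; positivity
  have hr0 : 0 < r := by
    by_contra hr
    have h1 : LC * lam ^ 2 * r ≤ 0 :=
      mul_nonpos_of_nonneg_of_nonpos (by positivity) (not_lt.1 hr)
    have h2 : K ^ (t + 7) * q ≤ 0 :=
      mul_nonpos_of_nonneg_of_nonpos (by positivity) (hcut.trans h1)
    linarith
  have hKt : K ^ (t + 29) = K ^ (t + 28) * K := pow_succ _ _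
  by_cases hc : K ^ (t + 28) * x ^ 2 ≤ r ^ 3 / 2
  · have h1 : r ^ 3 ≤ 2 * (K ^ (t + 28) * (x * S)) := by linarith
    calc r ^ 3 ≤ 2 * (K ^ (t + 28) * (x * S)) := h1
      _ ≤ K * (K ^ (t + 28) * (x * S)) := mul_le_mul_of_nonneg_right hK (by positivity)
      _ = _ := by rw [hKt]; ring
  · exfalso
    have h1 : r ^ 3 < 2 * (K ^ (t + 28) * x ^ 2) := by linarith [not_le.1 hc]
    have h2 : N ≤ K ^ (t + 7) * (LC * lam ^ 2 * r) :=
      hq.trans (mul_le_mul_of_nonneg_left hcut (by positivity))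
    have h3 : N ^ 3 ≤ (K ^ (t + 7)) ^ 3 * LC ^ 3 * lam ^ 6 * r ^ 3 := by
      calc N ^ 3 ≤ (K ^ (t + 7) * (LC * lam ^ 2 * r)) ^ 3 := pow_le_pow_left₀ hN0.le h2 3
        _ = _ := by ring
    have h4 : N ^ 3 < (K ^ (t + 7)) ^ 3 * LC ^ 3 * lam ^ 6 * (2 * (K ^ (t + 28) * x ^ 2)) :=
      lt_of_le_of_lt h3 (mul_lt_mul_of_pos_left h1 (by positivity))
    have hxl : x * lam = N := by rw [hx]; field_simp
    have h5 : (K ^ (t + 7)) ^ 3 * LC ^ 3 * lam ^ 6 * (2 * (K ^ (t + 28) * x ^ 2)) =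
        2 * ((K ^ (t + 7)) ^ 3 * K ^ (t + 28)) * LC ^ 3 * lam ^ 4 * N ^ 2 := by
      rw [← hxl]; ring
    have h6 : (K ^ (t + 7)) ^ 3 * K ^ (t + 28) = K ^ (4 * t + 49) := by
      rw [← pow_mul, ← pow_add]; congr 1; ring
    rw [h5, h6] at h4
    have h7 : N < 2 * K ^ (4 * t + 49) * LC ^ 3 * lam ^ 4 := by
      have : N * N ^ 2 < (2 * K ^ (4 * t + 49) * LC ^ 3 * lam ^ 4) * N ^ 2 := by
        calc N * N ^ 2 = N ^ 3 := by ring
          _ < _ := h4
          _ = _ := by ring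
      exact lt_of_mul_lt_mul_right this (by positivity)
    have h8 : lam < 2 * K ^ (4 * t + 49) * LC ^ 3 := by
      have : lam * lam ^ 4 < (2 * K ^ (4 * t + 49) * LC ^ 3) * lam ^ 4 := by
        calc lam * lam ^ 4 = lam ^ 5 := by ring
          _ ≤ N := hN
          _ < _ := h7
      exact lt_of_mul_lt_mul_right this (by positivity)
    have h9 : 2 * K ^ (4 * t + 49) ≤ L ^ (4 * t + 50) := by
      calc 2 * K ^ (4 * t + 49) ≤ K * K ^ (4 * t + 49) :=
            mul_le_mul_of_nonneg_right hK (by positivity)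
        _ = K ^ (4 * t + 50) := by ring
        _ ≤ L ^ (4 * t + 50) := pow_le_pow_left₀ hK0.le hKL _
    have h10 : LC ^ 3 = L ^ (3 * m) := by rw [hLC, ← pow_mul, mul_comm]
    have h11 : lam < L ^ (4 * t + 51 + 3 * m) := by
      calc lam < 2 * K ^ (4 * t + 49) * LC ^ 3 := h8
        _ ≤ L ^ (4 * t + 50) * L ^ (3 * m) := by
          rw [h10]
          exact mul_le_mul_of_nonneg_right h9 (by positivity)
        _ = L ^ (4 * t + 50 + 3 * m) := (pow_add _ _ _).symm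
        _ ≤ L ^ (4 * t + 51 + 3 * m) := pow_le_pow_right₀ hL.le (by omega)
    linarith

/-- a polygon is a finite intersection of half-planes -/
theorem pol_half (S : Finset (ℝ × ℝ × ℝ)) : ∃ H : ℕ → Set Pt, (∀ i, IsHalf (H i)) ∧
    ∀ z : Pt, H759.Pol S z ↔ ∀ i ∈ range #S, z ∈ H i := by
  classical
  set f : ℕ → ℝ × ℝ × ℝ := fun i => if h : i < #S then (S.equivFin.symm ⟨i, h⟩).1 else 0 with hf
  refine ⟨fun i => {z | (f i).1 * z.1 + (f i).2.1 * z.2 ≤ (f i).2.2},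
    fun i => isHalf_le _ _ _, fun z => ⟨fun h i hi => ?_, fun h s hs => ?_⟩⟩
  · have hi' := mem_range.1 hi
    have hfi : f i = (S.equivFin.symm ⟨i, hi'⟩).1 := by
      simp only [hf]; rw [dif_pos hi']
    have := h (f i) (by rw [hfi]; exact (S.equivFin.symm ⟨i, hi'⟩).2)
    exact this
  · set i := S.equivFin ⟨s, hs⟩ with hi
    have := h i.1 (mem_range.2 i.2)
    have hfi : f i.1 = s := by
      simp only [hf]
      rw [dif_pos i.2]
      have : (⟨i.1, i.2⟩ : Fin #S) = i := rfl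
      rw [this, hi, Equiv.symm_apply_apply]
    have h2 : (f i.1).1 * z.1 + (f i.1).2.1 * z.2 ≤ (f i.1).2.2 := this
    rw [hfi] at h2
    exact h2

open Classical in
/-- the field `star` -/
theorem star_field : ∃ C2 : ℝ, 1 ≤ C2 ∧ ∀ (t C0 : ℕ) (K L lam N x : ℝ) (P : Finset Pt) (k : ℕ)
    (Q : Finset Pt) (W : Finset ℕ) (I : ℕ → Set ℝ) (Y : ℕ → Finset Pt), C2 ≤ K ^ t → Good P →
    Q ⊆ P → 2 ≤ K → K ^ (2 * t + 36) ≤ L → L ^ (4 * t + 51 + 3 * C0) ≤ lam → 0 < N →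
    lam ^ 5 ≤ N → x = N / lam → 1 ≤ x → N ≤ K ^ (t + 7) * #Q →
    (∀ w ∈ W, (I w).OrdConnected) → (∀ w ∈ W, ∀ w' ∈ W, w ≠ w' → Disjoint (I w) (I w')) →
    (∀ w ∈ W, (#(Tch P k Q (I w)) : ℝ) ≤ K * x) →
    (∀ w ∈ W, (#(EdBd P k Q (I w)) : ℝ) ≤ K * x) → (∀ w ∈ W, Y w ⊆ Q) →
    (∀ w ∈ W, ∀ p ∈ Y w, x ^ (1 / 3 : ℝ) ≤ 2 * K ^ 2 * View.dg P k Q (I w) p) →
    ∀ S : Finset (ℝ × ℝ × ℝ), #S ≤ 8 →
    (∑ w ∈ W with (#Q : ℝ) ≤ L ^ C0 * lam ^ 2 * #{p ∈ Y w | H759.Pol S p},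
      (#{p ∈ Y w | H759.Pol S p} : ℝ) ^ 3) ≤
      L * (#Q / lam) * (#{p ∈ Q | H759.Pol S p} : ℝ) ^ 2 := by
  classical
  obtain ⟨C2, hC2, hstar⟩ := View.star_one stDey stRank
  refine ⟨C2, hC2, ?_⟩
  intro t C0 K L lam N x P k Q W I Y hC2K hP hQP hK hKL hLlam hN0 hlamN hx hx1 hNQ hIc hId hT hBd
    hYQ hdg S hS
  have hK0 : 0 < K := by linarith
  have hK1 : 1 ≤ K := by linarith
  have hx0 : 0 < x := by linarith
  have hKL1 : K ≤ L := by
    calc K = K ^ 1 := (pow_one K).symm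
      _ ≤ K ^ (2 * t + 36) := pow_le_pow_right₀ hK1 (by omega)
      _ ≤ L := hKL
  have hL0 : 0 < L := by linarith
  have hlam0 : 0 < lam := lt_of_lt_of_le (by positivity) hLlam
  obtain ⟨H, hH, hHP⟩ := pol_half S
  set Z : Finset Pt := {p ∈ Q | H759.Pol S p} with hZ
  have hZm : ∀ z, z ∈ Z ↔ z ∈ Q ∧ ∀ i ∈ range #S, z ∈ H i := by
    intro z
    rw [hZ, mem_filter, hHP]
  set V : Finset ℕ := {w ∈ W | (#Q : ℝ) ≤ L ^ C0 * lam ^ 2 * #{p ∈ Y w | H759.Pol S p}}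
    with hV
  have hK3 : K ≤ K ^ 3 := by
    calc K = K ^ 1 := (pow_one K).symm
      _ ≤ K ^ 3 := pow_le_pow_right₀ hK1 (by norm_num)
  have h8 : (#S : ℝ) ≤ 8 := by exact_mod_cast hS
  have hQe : C2 * (K ^ 3) ^ 6 * ((#S : ℝ) + 1) ^ 3 ≤ K ^ (t + 28) := by
    have h9 : ((#S : ℝ) + 1) ^ 3 ≤ K ^ 10 := by
      calc ((#S : ℝ) + 1) ^ 3 ≤ (9 : ℝ) ^ 3 :=
            pow_le_pow_left₀ (by positivity) (by linarith) 3
        _ ≤ 2 ^ 10 := by norm_num
        _ ≤ K ^ 10 := pow_le_pow_left₀ (by norm_num) hK 10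
    calc C2 * (K ^ 3) ^ 6 * ((#S : ℝ) + 1) ^ 3 ≤ K ^ t * (K ^ 3) ^ 6 * K ^ 10 := by
          gcongr
      _ = K ^ (t + 28) := by ring
  have hone : ∀ w ∈ V, (#{p ∈ Y w | H759.Pol S p} : ℝ) ^ 3 ≤
      K ^ (t + 29) * (x * #(Sw Z (I w))) := by
    intro w hw
    obtain ⟨hw1, hw2⟩ := mem_filter.1 hw
    have hYZ : ({p ∈ Y w | H759.Pol S p} : Finset Pt) = Y w ∩ Z := by
      ext p
      rw [mem_filter, mem_inter, hZ, mem_filter]
      exact ⟨fun h => ⟨h.1, hYQ w hw1 h.1, h.2⟩, fun h => ⟨h.1, h.2.2⟩⟩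
    rw [hYZ] at hw2 ⊢
    have h1 := hstar P k Q (I w) (Y w) (K ^ 3) x hP hQP (hK.trans hK3) hx1 (hIc w hw1)
      ((hT w hw1).trans (mul_le_mul_of_nonneg_right hK3 hx0.le))
      ((hBd w hw1).trans (mul_le_mul_of_nonneg_right hK3 hx0.le))
      (fun p hp => (hdg w hw1 p hp).trans (by
        apply mul_le_mul_of_nonneg_right _ (Nat.cast_nonneg _)
        calc 2 * K ^ 2 ≤ K * K ^ 2 := mul_le_mul_of_nonneg_right hK (by positivity)
          _ = K ^ 3 := by ring))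
      (range #S) H (fun i _ => hH i) Z hZm
    rw [card_range] at h1
    refine star_arith (t := t) (m := C0) (K := K) (L := L) (lam := lam) (N := N)
      (q := (#Q : ℝ)) (LC := L ^ C0) hK (by linarith) hKL1 hN0 hlamN hlam0 hx rfl hNQ hw2
      (Nat.cast_nonneg _) hLlam ?_
    exact h1.trans (mul_le_mul_of_nonneg_right hQe (by positivity))
  have hsum : ∑ w ∈ V, (#(Sw Z (I w)) : ℝ) ≤ (#Z : ℝ) ^ 2 := by
    have hVW : ∀ w ∈ V, w ∈ W := fun w hw => (mem_filter.1 hw).1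
    exact_mod_cast H616.sum_Sw_le V I
      (fun w hw w' hw' hne => hId w (hVW w hw) w' (hVW w' hw') hne) Z
  have hxq : x ≤ K ^ (t + 7) * (#Q / lam) := by
    rw [hx]
    calc N / lam ≤ (K ^ (t + 7) * #Q) / lam := by gcongr
      _ = _ := by ring
  calc ∑ w ∈ V, (#{p ∈ Y w | H759.Pol S p} : ℝ) ^ 3
      ≤ ∑ w ∈ V, K ^ (t + 29) * (x * #(Sw Z (I w))) := sum_le_sum hone
    _ = K ^ (t + 29) * (x * ∑ w ∈ V, (#(Sw Z (I w)) : ℝ)) := by
      rw [← mul_sum, ← mul_sum]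
    _ ≤ K ^ (t + 29) * (x * (#Z : ℝ) ^ 2) := by gcongr
    _ ≤ K ^ (t + 29) * ((K ^ (t + 7) * (#Q / lam)) * (#Z : ℝ) ^ 2) := by gcongr
    _ = K ^ (2 * t + 36) * (#Q / lam * (#Z : ℝ) ^ 2) := by ring
    _ ≤ L * (#Q / lam * (#Z : ℝ) ^ 2) := mul_le_mul_of_nonneg_right hKL (by positivity)
    _ = L * (#Q / lam) * (#Z : ℝ) ^ 2 := by ring

end star

section main

theorem pp_arith {K x J Pp m : ℝ} {t : ℕ} (hK : 2 ≤ K) (hx : 0 < x)
    (h1 : x ^ 2 ≤ K ^ (t + 12) * J) (h2 : J ≤ Pp + 2 * (x / (4 * K ^ (t + 13))) * m)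
    (hm : m ≤ K * x) (hPp : 0 ≤ Pp) : x ^ 2 ≤ K ^ (t + 13) * Pp := by
  have hK0 : 0 < K := by linarith
  have hKt : K ^ (t + 13) = K ^ (t + 12) * K := pow_succ _ _
  have h3 : K ^ (t + 12) * (2 * (x / (4 * K ^ (t + 13))) * m) ≤ x ^ 2 / 2 := by
    calc K ^ (t + 12) * (2 * (x / (4 * K ^ (t + 13))) * m)
        ≤ K ^ (t + 12) * (2 * (x / (4 * K ^ (t + 13))) * (K * x)) := by gcongr
      _ = x ^ 2 / 2 := by rw [hKt]; field_simp; ring
  have h4 : x ^ 2 ≤ K ^ (t + 12) * Pp + x ^ 2 / 2 := by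
    calc x ^ 2 ≤ K ^ (t + 12) * J := h1
      _ ≤ K ^ (t + 12) * (Pp + 2 * (x / (4 * K ^ (t + 13))) * m) := by gcongr
      _ = K ^ (t + 12) * Pp + K ^ (t + 12) * (2 * (x / (4 * K ^ (t + 13))) * m) := by ring
      _ ≤ _ := by linarith
  calc x ^ 2 ≤ 2 * (K ^ (t + 12) * Pp) := by linarith
    _ ≤ K * (K ^ (t + 12) * Pp) := mul_le_mul_of_nonneg_right hK (by positivity)
    _ = _ := by rw [hKt]; ring

/-- few starting points of separated windows in `[0, 1]` -/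
theorem card_start1 {W : Finset ℕ} {a b : ℕ → ℝ} {del : ℝ} (hdel : 0 < del)
    (hlen : ∀ w ∈ W, del ≤ b w - a w)
    (hdisj : ∀ w ∈ W, ∀ w' ∈ W, w ≠ w' → b w < a w' ∨ b w' < a w)
    (hs : ∀ w ∈ W, 0 ≤ a w ∧ a w ≤ 1) : (#W : ℝ) ≤ 1 / del + 1 := by
  classical
  have hinj : Set.InjOn (fun w => ⌊a w / del⌋) (W : Set ℕ) := by
    intro w hw w' hw' h
    by_contra hne
    have key : ∀ u v : ℕ, u ∈ W → v ∈ W → b u < a v → ⌊a u / del⌋ = ⌊a v / del⌋ →
        False := by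
      intro u v hu hv huv hfl
      have h1 := hlen u hu
      have h2 : a u / del + 1 < a v / del := by
        rw [← sub_pos]
        have : a v / del - (a u / del + 1) = (a v - a u - del) / del := by
          field_simp; ring
        rw [this]
        apply div_pos _ hdel
        linarith
      have h3 := Int.lt_floor_add_one (a v / del)
      have h5 := Int.floor_le (a u / del)
      rw [hfl] at h5
      linarith
    rcases hdisj w hw w' hw' hne with h1 | h1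
    · exact key w w' hw hw' h1 h
    · exact key w' w hw' hw h1 h.symm
  have hmap : W.image (fun w => ⌊a w / del⌋) ⊆ Finset.Icc (0 : ℤ) ⌊1 / del⌋ := by
    intro z hz
    rw [mem_image] at hz
    obtain ⟨w, hw, rfl⟩ := hz
    rw [mem_Icc]
    have h1 := hs w hw
    constructor
    · exact Int.floor_nonneg.2 (div_nonneg (by linarith) hdel.le)
    · exact Int.floor_le_floor (div_le_div_of_nonneg_right (by linarith) hdel.le)
  have h1 := card_le_card hmap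
  rw [card_image_of_injOn hinj, Int.card_Icc] at h1
  have h2 : 0 ≤ ⌊1 / del⌋ := Int.floor_nonneg.2 (by positivity)
  have h3 : ((⌊1 / del⌋ + 1 - 0).toNat : ℝ) = (⌊1 / del⌋ : ℝ) + 1 := by
    have : ((⌊1 / del⌋ + 1 - 0).toNat : ℤ) = ⌊1 / del⌋ + 1 := by omega
    exact_mod_cast this
  calc (#W : ℝ) ≤ ((⌊1 / del⌋ + 1 - 0).toNat : ℝ) := by exact_mod_cast h1
    _ = (⌊1 / del⌋ : ℝ) + 1 := h3
    _ ≤ 1 / del + 1 := by linarith [Int.floor_le (1 / del)]

/-- the field `dlam` -/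
theorem dlam_field {K k3 Kp ks Kpp L lam N del : ℝ} {P : Finset Pt} {k : ℕ} {Q : Finset Pt}
    {W : Finset ℕ} {a b be : ℕ → ℝ} {T : ℕ → Finset Pt}
    (hB : Vale.Agent.P065.UB.P.NW2 K k3 Kp ks Kpp lam N del P k Q W a b be T)
    (hlam0 : 0 < lam) (hK : 2 ≤ K) (hL : K ^ 2 ≤ L) : del * lam ^ 2 ≤ L := by
  have hK0 : 0 < K := by linarith
  have hW0c : 0 < (#W : ℝ) := by
    have h1 := hB.cardW'
    have h2 : 0 < K * (#W : ℝ) := lt_of_lt_of_le (by positivity) h1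
    exact pos_of_mul_pos_right h2 hK0.le
  obtain ⟨w0, hw0⟩ := Finset.card_pos.1 (by exact_mod_cast hW0c : 0 < #W)
  have hd0 := hB.del0
  have hd1 : del ≤ 1 := by
    have h1 := hB.len w0 hw0
    have h2 := hB.unit w0 hw0
    linarith [h1.1, h2.1, h2.2]
  have h1 := card_start1 hd0 (fun w hw => (hB.len w hw).1) hB.disj (fun w hw => by
    have h1 := hB.len w hw
    have h2 := hB.unit w hw
    exact ⟨h2.1, by linarith [h1.1, h2.2]⟩)
  have h2 : del * (#W : ℝ) ≤ 2 := by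
    calc del * (#W : ℝ) ≤ del * (1 / del + 1) := mul_le_mul_of_nonneg_left h1 hd0.le
      _ = 1 + del := by field_simp
      _ ≤ 2 := by linarith
  calc del * lam ^ 2 ≤ del * (K * #W) := mul_le_mul_of_nonneg_left hB.cardW' hd0.le
    _ = K * (del * #W) := by ring
    _ ≤ K * 2 := mul_le_mul_of_nonneg_left h2 hK0.le
    _ ≤ K * K := mul_le_mul_of_nonneg_left hK hK0.le
    _ = K ^ 2 := (sq K).symm
    _ ≤ L := hL

open Classical in
/-- the field `ncu` -/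
theorem ncu_field {s t c : ℕ} {K k3 Kp L lam N q : ℝ} {T Y : Finset Pt} (hlam0 : 0 < lam)
    (hK : 2 ≤ K) (hk3 : K ^ c * k3 ≤ 1) (hk3Kp : 1 ≤ k3 * Kp) (hKp0 : 0 < Kp)
    (hKpL : 2 * Kp ≤ L) (hN0 : 0 < N) (hNQ : N ≤ K ^ (t + 7) * q) (hc : s + (t + 7) ≤ c)
    (hsp : ∀ x : ℝ, lam * #{p ∈ T | x ≤ p.1 ∧ p.1 ≤ x + 1 / Kp} ≤ k3 * N) (hY : Y ⊆ T)
    (u : ℝ) : K ^ s * lam * (#{p ∈ Y | |p.1 - u| ≤ 1 / L} : ℝ) ≤ q := by
  have hK0 : 0 < K := by linarith
  have hL0 : 0 < L := by linarith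
  have hq0 : 0 ≤ q := by
    by_contra hq
    have : K ^ (t + 7) * q ≤ 0 := mul_nonpos_of_nonneg_of_nonpos (by positivity) (not_le.1 hq).le
    linarith
  have hk30 : 0 < k3 := by
    by_contra hk
    have : k3 * Kp ≤ 0 := mul_nonpos_of_nonpos_of_nonneg (not_lt.1 hk) hKp0.le
    linarith
  have h1 := hsp (u - 1 / L)
  have h2 : 2 * (1 / L) ≤ 1 / Kp := by
    rw [le_div_iff₀ hKp0]
    calc 2 * (1 / L) * Kp = (2 * Kp) / L := by ring
      _ ≤ 1 := by rw [div_le_one hL0]; exact hKpL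
  have h3 : (#{p ∈ Y | |p.1 - u| ≤ 1 / L} : ℝ) ≤
      #{p ∈ T | u - 1 / L ≤ p.1 ∧ p.1 ≤ u - 1 / L + 1 / Kp} := by
    have : ({p ∈ Y | |p.1 - u| ≤ 1 / L} : Finset Pt) ⊆
        {p ∈ T | u - 1 / L ≤ p.1 ∧ p.1 ≤ u - 1 / L + 1 / Kp} := by
      intro p hp
      obtain ⟨hp1, hp2⟩ := mem_filter.1 hp
      rw [abs_le] at hp2
      exact mem_filter.2 ⟨hY hp1, by linarith [hp2.1], by linarith [hp2.2]⟩
    exact_mod_cast card_le_card this
  calc K ^ s * lam * (#{p ∈ Y | |p.1 - u| ≤ 1 / L} : ℝ)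
      = K ^ s * (lam * (#{p ∈ Y | |p.1 - u| ≤ 1 / L} : ℝ)) := by ring
    _ ≤ K ^ s * (lam * #{p ∈ T | u - 1 / L ≤ p.1 ∧ p.1 ≤ u - 1 / L + 1 / Kp}) := by
      gcongr
    _ ≤ K ^ s * (k3 * N) := by gcongr
    _ ≤ K ^ s * (k3 * (K ^ (t + 7) * q)) := by gcongr
    _ = (K ^ (s + (t + 7)) * k3) * q := by rw [pow_add]; ring
    _ ≤ (K ^ c * k3) * q := by
      apply mul_le_mul_of_nonneg_right _ hq0
      apply mul_le_mul_of_nonneg_right _ hk30.le
      exact pow_le_pow_right₀ (by linarith) hc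
    _ ≤ 1 * q := mul_le_mul_of_nonneg_right hk3 hq0
    _ = q := one_mul _

open Classical in
/-- the field `ncx` -/
theorem ncx_field {s c : ℕ} {K k3 k4 Kp ks Kpp L lam N del : ℝ} {P : Finset Pt} {k : ℕ}
    {Q : Finset Pt} {W₀ W : Finset ℕ} {a b be : ℕ → ℝ} {T T' Y : ℕ → Finset Pt}
    (h : Vale.Agent.P065.UB.P.NW3 K k3 k4 Kp ks Kpp lam N del P k Q W₀ W a b be T T')
    (hK : 2 ≤ K) (hlam0 : 0 < lam) (hk4 : K ^ c * k4 ≤ 1) (hKpp0 : 0 < Kpp)
    (hKppL : 2 * Kpp ≤ L) (hc : s ≤ c) (hY : ∀ w ∈ W, Y w ⊆ T' w) (q : Pt) (u : ℝ) :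
    K ^ s * (#{w ∈ W | q ∈ Y w ∧ |a w - u| ≤ 1 / L} : ℝ) ≤ lam := by
  have hK0 : 0 < K := by linarith
  have hL0 : 0 < L := by linarith
  rcases ({w ∈ W | q ∈ Y w ∧ |a w - u| ≤ 1 / L} : Finset ℕ).eq_empty_or_nonempty with
    hE | ⟨w, hw⟩
  · rw [hE]
    simpa using hlam0.le
  · obtain ⟨hw1, hw2, _⟩ := mem_filter.1 hw
    have h1 := h.ncX w hw1 q (hY w hw1 hw2) (u - 1 / L)
    have hk40 : 0 ≤ k4 := by
      have h2 : 0 ≤ k4 * lam := le_trans (Nat.cast_nonneg _) h1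
      exact nonneg_of_mul_nonneg_left h2 hlam0
    have h2 : 2 * (1 / L) ≤ 1 / Kpp := by
      rw [le_div_iff₀ hKpp0]
      calc 2 * (1 / L) * Kpp = (2 * Kpp) / L := by ring
        _ ≤ 1 := by rw [div_le_one hL0]; exact hKppL
    have h3 : (#{w ∈ W | q ∈ Y w ∧ |a w - u| ≤ 1 / L} : ℝ) ≤
        #{v ∈ W₀ | q ∈ T v ∧ u - 1 / L ≤ a v ∧ a v ≤ u - 1 / L + 1 / Kpp} := by
      have : ({w ∈ W | q ∈ Y w ∧ |a w - u| ≤ 1 / L} : Finset ℕ) ⊆
          {v ∈ W₀ | q ∈ T v ∧ u - 1 / L ≤ a v ∧ a v ≤ u - 1 / L + 1 / Kpp} := by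
        intro v hv
        obtain ⟨hv1, hv2, hv3⟩ := mem_filter.1 hv
        rw [abs_le] at hv3
        exact mem_filter.2 ⟨h.subW hv1, h.subT' v hv1 (hY v hv1 hv2),
          by linarith [hv3.1], by linarith [hv3.2]⟩
      exact_mod_cast card_le_card this
    calc K ^ s * (#{w ∈ W | q ∈ Y w ∧ |a w - u| ≤ 1 / L} : ℝ)
        ≤ K ^ s * #{v ∈ W₀ | q ∈ T v ∧ u - 1 / L ≤ a v ∧ a v ≤ u - 1 / L + 1 / Kpp} := by
          gcongr
      _ ≤ K ^ s * (k4 * lam) := by gcongr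
      _ = (K ^ s * k4) * lam := by ring
      _ ≤ (K ^ c * k4) * lam := by
        apply mul_le_mul_of_nonneg_right _ hlam0.le
        apply mul_le_mul_of_nonneg_right _ hk40
        exact pow_le_pow_right₀ (by linarith) hc
      _ ≤ 1 * lam := mul_le_mul_of_nonneg_right hk4 hlam0.le
      _ = lam := one_mul _

/-- **[P-J]** -/
theorem stPJ : H759.StPJ := by
  classical
  obtain ⟨C1, hC1, hwin⟩ := win_M
  obtain ⟨C2, hC2, hst⟩ := star_field
  obtain ⟨t, htt⟩ := pow_unbounded_of_one_lt (max C1 C2) (one_lt_two (α := ℝ))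
  refine ⟨2 * t + 37, fun C0 => ⟨(2 * t + 37) * (C0 + 2) + 4 * t + 100 + 3 * C0, ?_⟩⟩
  intro K k3 k4 Kp ks Kpp L lam N del P k Q W₀ W a b be T T' hK hk3 hk4 hk3Kp hKp hks hKpks
    hksKpp hKppL hLlam hlamN _ h
  have hc0 : (2 * t + 37) * (C0 + 2) = (2 * t + 37) * C0 + 4 * t + 74 := by ring
  have hprod : C0 ≤ (2 * t + 37) * C0 := Nat.le_mul_of_pos_left _ (by omega)
  generalize hc : (2 * t + 37) * (C0 + 2) + 4 * t + 100 + 3 * C0 = c at *
  generalize hsC : (2 * t + 37) * C0 = sC at *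
  have hB := h.base
  have hK0 : 0 < K := by linarith
  have hK1 : 1 ≤ K := by linarith
  obtain ⟨hKp0, hKpp0, hKpL, hKppL2, hKcL⟩ := par (by omega) hK hKp hks hKpks hksKpp hKppL
  have hKL1 : K ≤ L := by
    calc K = K ^ 1 := (pow_one K).symm
      _ ≤ K ^ c := pow_le_pow_right₀ hK1 (by omega)
      _ ≤ L := hKcL
  have hL2 : 2 ≤ L := by linarith
  have hL0 : 0 < L := by linarith
  have hL1 : 1 ≤ L := by linarith
  have hLlam1 : L ≤ lam := by
    calc L = L ^ 1 := (pow_one L).symm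
      _ ≤ L ^ c := pow_le_pow_right₀ hL1 (by omega)
      _ ≤ lam := hLlam
  have hlam1 : 1 ≤ lam := by linarith
  have hlam0 : 0 < lam := by linarith
  have hN0 : 0 < N := lt_of_lt_of_le (by positivity) hlamN
  have hC1K : C1 ≤ K ^ t := by
    calc C1 ≤ 2 ^ t := (le_max_left _ _).trans htt.le
      _ ≤ K ^ t := pow_le_pow_left₀ (by norm_num) hK t
  have hC2K : C2 ≤ K ^ t := by
    calc C2 ≤ 2 ^ t := (le_max_right _ _).trans htt.le
      _ ≤ K ^ t := pow_le_pow_left₀ (by norm_num) hK t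
  -- the size of one window
  obtain ⟨x, hx⟩ : ∃ x : ℝ, x = N / lam := ⟨_, rfl⟩
  have hxl : x * lam = N := by rw [hx]; field_simp
  have hxlam : lam ≤ x := by
    rw [hx, le_div_iff₀ hlam0]
    calc lam * lam = lam ^ 2 := (sq lam).symm
      _ ≤ lam ^ 5 := pow_le_pow_right₀ hlam1 (by norm_num)
      _ ≤ N := hlamN
  have hx1 : 1 ≤ x := hlam1.trans hxlam
  have hx0 : 0 < x := by linarith
  have hcx : C1 * K ^ 12 ≤ x ^ 2 := by
    calc C1 * K ^ 12 ≤ K ^ t * K ^ 12 := mul_le_mul_of_nonneg_right hC1K (by positivity)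
      _ = K ^ (t + 12) := (pow_add _ _ _).symm
      _ ≤ K ^ c := pow_le_pow_right₀ hK1 (by omega)
      _ ≤ x := by linarith
      _ ≤ x ^ 2 := by nlinarith
  -- windows
  set I : ℕ → Set ℝ := fun w => Set.Icc (a w) (b w) with hI
  have hW0 : ∀ w ∈ W, w ∈ W₀ := fun w hw => h.subW hw
  have hIc : ∀ w, (I w).OrdConnected := fun w => Set.ordConnected_Icc
  have hId : ∀ w ∈ W, ∀ w' ∈ W, w ≠ w' → Disjoint (I w) (I w') := by
    intro w hw w' hw' hne
    rw [Set.disjoint_left]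
    intro m hm hm'
    rcases hB.disj w (hW0 w hw) w' (hW0 w' hw') hne with h1 | h1
    · exact absurd (hm'.1.trans hm.2) (not_le.2 h1)
    · exact absurd (hm.1.trans hm'.2) (not_le.2 h1)
  have hT : ∀ w ∈ W, (#(Tch P k Q (I w)) : ℝ) ≤ K * x := by
    intro w hw
    have h1 := hB.tch w (hW0 w hw)
    rw [← hxl] at h1
    have h2 : lam * (#(Tch P k Q (I w)) : ℝ) ≤ lam * (K * x) := by
      calc lam * (#(Tch P k Q (I w)) : ℝ) ≤ K * (x * lam) := h1
        _ = _ := by ring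
    exact le_of_mul_le_mul_left h2 hlam0
  have hBd : ∀ w ∈ W, (#(EdBd P k Q (I w)) : ℝ) ≤ K * x := by
    intro w hw
    have h1 := hB.bd w (hW0 w hw)
    rw [← hxl] at h1
    have h2 : lam * (#(EdBd P k Q (I w)) : ℝ) ≤ lam * (K * x) := by
      calc lam * (#(EdBd P k Q (I w)) : ℝ) ≤ K * (x * lam) := h1
        _ = _ := by ring
    exact le_of_mul_le_mul_left h2 hlam0
  have hTT : ∀ w ∈ W, T' w ⊆ Tch P k Q (I w) := fun w hw =>
    (h.subT' w hw).trans (hB.subT w (hW0 w hw))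
  have hTQ : ∀ w ∈ W, T' w ⊆ Q := fun w hw =>
    (hTT w hw).trans (Tch_subset P k Q (I w))
  obtain ⟨D, hD⟩ : ∃ D : ℝ, D = x ^ (1 / 3 : ℝ) / (2 * K ^ 2) := ⟨_, rfl⟩
  set M : ℕ → Finset Pt := fun w => Hi P k Q (I w) (T' w) D with hM
  have hMT : ∀ w, M w ⊆ T' w := fun w => Finset.filter_subset _ _
  have hMQ : ∀ w ∈ W, M w ⊆ Q := fun w hw => (hMT w).trans (hTQ w hw)
  have hMc : ∀ w ∈ W, (#(M w) : ℝ) ≤ K * x := by
    intro w hw
    have h1 : (#(M w) : ℝ) ≤ #(Tch P k Q (I w)) := by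
      exact_mod_cast card_le_card ((hMT w).trans (hTT w hw))
    exact h1.trans (hT w hw)
  have hJ0 : ∀ w ∈ W, x ^ 2 ≤ K ^ (t + 12) * #(JJ (M w) (I w)) := by
    intro w hw
    have h1 := hwin P k Q (I w) (T' w) (Vale.Agent.P065.UB.P.ET P k Q a b T' w) K x hB.good hB.sub (hIc w) hK hx1
      hcx (hT w hw) (hBd w hw) (hTT w hw) (Finset.filter_subset _ _)
      (fun e he => (Finset.mem_filter.1 he).2) (by rw [hx]; exact h.edT' w hw)
    rw [← hD] at h1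
    have h2 : (#(Sw (M w) (I w)) : ℝ) ≤ #(JJ (M w) (I w)) := by
      exact_mod_cast card_Sw_le_JJ _ _
    calc x ^ 2 ≤ C1 * K ^ 12 * #(Sw (M w) (I w)) := h1
      _ ≤ K ^ t * K ^ 12 * #(JJ (M w) (I w)) := by gcongr
      _ = _ := by rw [← pow_add]
  obtain ⟨θ, hθ⟩ : ∃ θ : ℝ, θ = x / (4 * K ^ (t + 13)) := ⟨_, rfl⟩
  have hθ0 : 0 < θ := by rw [hθ]; positivity
  set Y : ℕ → Finset Pt := fun w => YY (M w) (I w) θ with hY
  set J : ℕ → Finset (Pt × Pt) := fun w => PP (M w) (I w) θ with hJ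
  have hJc : ∀ w ∈ W, x ^ 2 ≤ K ^ (t + 13) * #(J w) := by
    intro w hw
    refine pp_arith hK hx0 (hJ0 w hw) ?_ (hMc w hw) (Nat.cast_nonneg _)
    rw [← hθ]
    exact prune (M w) (I w) hθ0.le
  have hYM : ∀ w, Y w ⊆ M w := fun w => Finset.filter_subset _ _
  -- `N` and `#Q`
  have hNQ : N ≤ K ^ (t + 7) * #Q := by
    have h1 : ∑ w ∈ W, (#(J w) : ℝ) ≤ (#Q : ℝ) ^ 2 := by
      exact_mod_cast sum_PP_le W I M (θ := θ) hId hMQ
    have h2 : #W * x ^ 2 ≤ K ^ (t + 13) * (#Q : ℝ) ^ 2 := by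
      calc #W * x ^ 2 = ∑ w ∈ W, x ^ 2 := by rw [sum_const, nsmul_eq_mul]
        _ ≤ ∑ w ∈ W, K ^ (t + 13) * (#(J w) : ℝ) := sum_le_sum hJc
        _ = K ^ (t + 13) * ∑ w ∈ W, (#(J w) : ℝ) := by rw [mul_sum]
        _ ≤ _ := mul_le_mul_of_nonneg_left h1 (by positivity)
    have h3 : N ^ 2 ≤ (K ^ (t + 7) * #Q) ^ 2 := by
      calc N ^ 2 = lam ^ 2 * x ^ 2 := by rw [← hxl]; ring
        _ ≤ (K * #W) * x ^ 2 := mul_le_mul_of_nonneg_right h.cardW' (by positivity)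
        _ = K * (#W * x ^ 2) := by ring
        _ ≤ K * (K ^ (t + 13) * (#Q : ℝ) ^ 2) := mul_le_mul_of_nonneg_left h2 hK0.le
        _ = K ^ (t + 14) * (#Q : ℝ) ^ 2 := by ring
        _ ≤ K ^ (2 * (t + 7)) * (#Q : ℝ) ^ 2 := by
          apply mul_le_mul_of_nonneg_right _ (by positivity)
          exact pow_le_pow_right₀ hK1 (by omega)
        _ = _ := by rw [mul_pow, ← pow_mul, mul_comm (t + 7) 2]
    exact le_of_pow_le_pow_left₀ (n := 2) (by norm_num) (by positivity) h3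
  have hQN := hB.cardQ
  have hQ0 : 0 < (#Q : ℝ) := by
    by_contra hQ
    have h1 : K ^ (t + 7) * (#Q : ℝ) ≤ 0 :=
      mul_nonpos_of_nonneg_of_nonpos (by positivity) (not_lt.1 hQ)
    linarith
  have hs7 : K ^ (t + 7) ≤ K ^ (2 * t + 37) := pow_le_pow_right₀ hK1 (by omega)
  have hKs1 : K ≤ K ^ (2 * t + 37) := by
    calc K = K ^ 1 := (pow_one K).symm
      _ ≤ _ := pow_le_pow_right₀ hK1 (by omega)
  have hKsC : (K ^ (2 * t + 37)) ^ C0 = K ^ sC := by rw [← pow_mul, hsC]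
  refine ⟨Y, J, ?_⟩
  exact
    { two := hK.trans hKs1
      KL := by
        rw [hKsC]
        exact (pow_le_pow_right₀ hK1 (by omega)).trans hKcL
      Llam := (pow_le_pow_right₀ hL1 (by omega)).trans hLlam
      dpos := hB.del0
      dlam := dlam_field hB (hlam0) hK ((pow_le_pow_right₀ hK1 (by omega)).trans hKcL)
      neQ := Finset.card_pos.1 (by exact_mod_cast hQ0)
      box := hB.box
      cW := h.cardW'.trans (mul_le_mul_of_nonneg_right hKs1 (Nat.cast_nonneg _))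
      cW' := by
        have h1 : (#W : ℝ) ≤ #W₀ := by exact_mod_cast card_le_card h.subW
        exact (h1.trans hB.cardW).trans (mul_le_mul_of_nonneg_right hKs1 (by positivity))
      slope := fun w hw => by
        have h1 := hB.unit w (hW0 w hw)
        have h2 := hB.len w (hW0 w hw)
        have h3 := hB.del0
        exact ⟨h1.1, by linarith⟩
      sepa := by
        intro w hw w' hw' hne
        have l1 := (hB.len w (hW0 w hw)).1
        have l2 := (hB.len w' (hW0 w' hw')).1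
        rcases hB.disj w (hW0 w hw) w' (hW0 w' hw') hne with h1 | h1
        · rw [abs_sub_comm]
          exact le_trans (by linarith) (le_abs_self _)
        · exact le_trans (by linarith) (le_abs_self _)
      subY := fun w hw => (hYM w).trans (hMQ w hw)
      tube := by
        intro w hw p hp
        have h1 := hB.tube w (hW0 w hw) p (h.subT' w hw (hMT w (hYM w hp)))
        have h3 := hB.del0
        unfold ht at h1
        rw [abs_le]
        constructor <;> linarith [h1.1, h1.2]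
      cY := by
        intro w hw
        have h1 : (#(Y w) : ℝ) ≤ K * x := by
          have : (#(Y w) : ℝ) ≤ #(M w) := by exact_mod_cast card_le_card (hYM w)
          exact this.trans (hMc w hw)
        calc lam * #(Y w) ≤ lam * (K * x) := mul_le_mul_of_nonneg_left h1 hlam0.le
          _ = K * N := by rw [← hxl]; ring
          _ ≤ K * (K ^ (t + 7) * #Q) := mul_le_mul_of_nonneg_left hNQ hK0.le
          _ = K ^ (t + 8) * #Q := by ring
          _ ≤ _ := by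
            apply mul_le_mul_of_nonneg_right _ (Nat.cast_nonneg _)
            exact pow_le_pow_right₀ hK1 (by omega)
      touch := by
        intro q hq
        have h1 := touch_le W I M (θ := θ) hId hMQ q ({w ∈ W | q ∈ Y w} : Finset ℕ)
          (fun w hw => mem_filter.1 hw)
        have h2 : (#({w ∈ W | q ∈ Y w} : Finset ℕ) : ℝ) * θ ≤ (4 * K ^ (t + 13) * lam) * θ := by
          calc _ ≤ (#Q : ℝ) := h1
            _ ≤ N := hQN
            _ = (4 * K ^ (t + 13) * lam) * θ := by rw [hθ, ← hxl]; field_simp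
        have h3 := le_of_mul_le_mul_right h2 hθ0
        refine h3.trans (mul_le_mul_of_nonneg_right ?_ hlam0.le)
        calc 4 * K ^ (t + 13) ≤ K ^ 2 * K ^ (t + 13) := by
              apply mul_le_mul_of_nonneg_right _ (by positivity)
              nlinarith
          _ = K ^ (t + 15) := by ring
          _ ≤ _ := pow_le_pow_right₀ hK1 (by omega)
      subJ := fun w _ e he => (mem_filter.1 he).2
      symJ := fun w _ e he => mem_filter.2
        ⟨JJ_swap (mem_filter.1 he).1, (mem_filter.1 he).2.2, (mem_filter.1 he).2.1⟩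
      cJ := by
        intro w hw
        calc (#Q : ℝ) ^ 2 ≤ N ^ 2 := pow_le_pow_left₀ hQ0.le hQN 2
          _ = lam ^ 2 * x ^ 2 := by rw [← hxl]; ring
          _ ≤ lam ^ 2 * (K ^ (t + 13) * #(J w)) :=
            mul_le_mul_of_nonneg_left (hJc w hw) (by positivity)
          _ = K ^ (t + 13) * lam ^ 2 * #(J w) := by ring
          _ ≤ K ^ (2 * t + 37) * lam ^ 2 * #(J w) := by
            apply mul_le_mul_of_nonneg_right _ (Nat.cast_nonneg _)
            apply mul_le_mul_of_nonneg_right _ (by positivity)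
            exact pow_le_pow_right₀ hK1 (by omega)
      disJ := by
        intro w hw w' hw' hne
        rw [disjoint_left]
        intro e he he'
        exact Set.disjoint_left.1 (hId w hw w' hw' hne) (mem_JJ.1 (mem_filter.1 he).1).2.2
          (mem_JJ.1 (mem_filter.1 he').1).2.2
      ncu := by
        intro w hw u
        rw [hKsC]
        refine ncu_field (s := sC) (t := t) (c := c) hlam0 hK hk3 hk3Kp hKp0 hKpL hN0 hNQ
          (by omega) (hB.spT w (hW0 w hw)) ?_ u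
        exact ((hYM w).trans (hMT w)).trans (h.subT' w hw)
      ncx := by
        intro q hq u
        rw [hKsC]
        exact ncx_field (s := sC) (c := c) h hK hlam0 hk4 hKpp0 hKppL2 (by omega)
          (fun w _ => (hYM w).trans (hMT w)) q u
      star := by
        intro S hS
        exact hst t C0 K L lam N x P k Q W I Y hC2K hB.good hB.sub hK
          ((pow_le_pow_right₀ hK1 (by omega)).trans hKcL)
          ((pow_le_pow_right₀ hL1 (by omega)).trans hLlam) hN0 hlamN hx hx1 hNQ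
          (fun w _ => hIc w) hId hT hBd (fun w hw => (hYM w).trans (hMQ w hw))
          (fun w _ p hp => by
            have h2 : D ≤ View.dg P k Q (I w) p := (mem_filter.1 (hYM w hp)).2
            rw [hD, div_le_iff₀ (by positivity)] at h2
            linarith) S hS }

end main

end Vale.Agent.P065.UB.H666
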