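import Vale.Agent.P065.UB.H666.Mult
import Vale.Agent.P065.H930.GroupM

/-!
# P065, upper bound: LEMMA M, parametric form (helper666)

`multAt`: as `Mult.stMult_of`, for fixed data and for any constants of the one-group form.
`stMult'`: closed with helper930's `stGroup'`.
-/

set_option autoImplicit false

namespace Vale.Agent.P065.UB.H666.Mult

open Finset Vale.Agent.P065.UB Vale.Agent.P065.UB.RankAux Vale.Agent.P065.H183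
open Vale.Agent.P065.UB.H415 (prj)

open Classical in
/-- the one-group form for fixed data, with constants `X`, `Y1`, `Y2` -/
def GroupAt (X Y1 Y2 K lam : ℝ) (Q : Finset Pt) (W : Finset ℕ) (I : ℕ → Set ℝ)
    (R : ℕ → Finset Pt) : Prop :=
    ∀ (c : Pt) (w0 : ℕ) (m0 : ℝ), w0 ∈ W → m0 ∈ I w0 →
    ∀ g A : Finset Pt, (∀ z ∈ g, z ∈ Q ∧ sl c z ∈ I w0) →
    ((∀ z ∈ g, c.1 < z.1) ∨ ∀ z ∈ g, z.1 < c.1) →
    ∀ (Pr : Finset (Pt × Pt)) (Wd : Pt × Pt → ℕ),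
    (∀ e ∈ Pr, e.1 ∈ g ∧ e.2 ∈ A ∧ Wd e ∈ W ∧ Wd e ≠ w0 ∧ e.1 ∈ R (Wd e) ∧ e.1.1 ≠ e.2.1 ∧
      sl (prj m0 c e.1) e.2 ∈ I (Wd e)) →
    ∀ L : ℝ, 1 ≤ L →
    (∀ z ∈ g, ∀ w ∈ W, lam * #{b ∈ A | (z, b) ∈ Pr ∧ Wd (z, b) = w} ≤ L * #A) →
    ∀ (M : ℕ) (D : ℝ), 1 ≤ M → 1 ≤ D → X * (K * L * D ^ 6 * #Q) ≤ lam ^ 2 * M →
    D * #{e ∈ Pr | M ≤ #{z ∈ g | (z, e.2) ∈ Pr ∧ Wd (z, e.2) = Wd e}} ≤
      (Y1 * #g + Y2 * #{p ∈ Q | sl c p ∈ I w0}) * #A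

section multx

variable {X Y1 Y2 K lam : ℝ} {Q : Finset Pt} {W : Finset ℕ} {I : ℕ → Set ℝ} {R : ℕ → Finset Pt}
variable {A : Finset Pt} {E : Finset (Pt × Pt)} {Wd : Pt × Pt → ℕ}

/-- one group -/
theorem group_leX (hG : GroupAt X Y1 Y2 K lam Q W I R) (hY1 : 0 ≤ Y1) (hY2 : 0 ≤ Y2)
    (hJ : JView K lam Q W I R)
    (hE : ∀ e ∈ E, e.1 ∈ A ∧ e.2 ∈ Q ∧ Wd e ∈ W ∧ e.2 ∈ R (Wd e) ∧ e.1.1 ≠ e.2.1 ∧
      sl e.1 e.2 ∈ I (Wd e)) {L : ℝ} (hL : 1 ≤ L)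
    (hA : open Classical in
      ∀ z ∈ Q, ∀ w ∈ W, lam * #{a ∈ A | (a, z) ∈ E ∧ Wd (a, z) = w} ≤ L * #A)
    {M : ℕ} {D : ℝ} (hM : 1 ≤ M) (hD : 1 ≤ D) (hMD : X * (K * L * D ^ 6 * #Q) ≤ lam ^ 2 * M)
    (c : Pt) (k : ℕ × Bool × Bool) (hk : k.1 ∈ W) : open Classical in
    D * #(bad Q A E Wd M c k) ≤
      (Y1 * #(gr Q E Wd c k) + Y2 * #{p ∈ Q | sl c p ∈ I k.1}) * #A := by
  classical
  rcases (gr Q E Wd c k).eq_empty_or_nonempty with h0 | ⟨z0, hz0⟩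
  · have : bad Q A E Wd M c k = ∅ := by
      unfold bad pr
      rw [h0]
      simp
    rw [this, card_empty, Nat.cast_zero, mul_zero]
    positivity
  have hgr : ∀ z ∈ gr Q E Wd c k, z ∈ Q ∧ (c, z) ∈ E ∧ key E Wd (c, z) = k := by
    intro z hz
    unfold gr at hz
    exact mem_filter.1 hz
  have hkk : ∀ z ∈ gr Q E Wd c k, Wd (c, z) = k.1 := by
    intro z hz
    rw [← (hgr z hz).2.2]
    rfl
  have hpr : ∀ e ∈ pr Q A E Wd c k, (e.1 ∈ gr Q E Wd c k ∧ e.2 ∈ A) ∧ (e.2, e.1) ∈ E ∧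
      Wd (e.2, e.1) ≠ k.1 ∧ th E Wd (c, e.1) ≤ th E Wd (e.2, e.1) := by
    intro e he
    unfold pr at he
    rw [mem_filter, mem_product] at he
    exact he
  have hE3 : ∀ e ∈ E, Wd e ∈ W ∧ e.1.1 ≠ e.2.1 ∧ sl e.1 e.2 ∈ I (Wd e) := fun e he =>
    ⟨(hE e he).2.2.1, (hE e he).2.2.2.2⟩
  have hm0 : en E Wd k ∈ I k.1 := by
    have h1 := hgr z0 hz0
    rw [← h1.2.2]
    unfold en
    split_ifs
    · exact t1_mem (fun e he => (hE3 e he).2.2) h1.2.1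
    · exact t2_mem (fun e he => (hE3 e he).2.2) h1.2.1
  have hside : (∀ z ∈ gr Q E Wd c k, c.1 < z.1) ∨ ∀ z ∈ gr Q E Wd c k, z.1 < c.1 := by
    have h2 : ∀ z ∈ gr Q E Wd c k, k.2.2 = decide (c.1 < z.1) := by
      intro z hz
      rw [← (hgr z hz).2.2]
      rfl
    rcases hkb : k.2.2 with _ | _
    · right
      intro z hz
      have h3 := h2 z hz
      rw [hkb] at h3
      have h4 : ¬ c.1 < z.1 := of_decide_eq_false h3.symm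
      exact lt_of_le_of_ne (not_lt.1 h4) (Ne.symm (hE _ (hgr z hz).2.1).2.2.2.2.1)
    · left
      intro z hz
      have h3 := h2 z hz
      rw [hkb] at h3
      exact of_decide_eq_true h3.symm
  have key := hG c k.1 (en E Wd k) hk hm0 (gr Q E Wd c k) A
    (fun z hz => by
      have h1 := hgr z hz
      refine ⟨h1.1, ?_⟩
      rw [← hkk z hz]
      exact (hE _ h1.2.1).2.2.2.2.2)
    hside (pr Q A E Wd c k) (fun e => Wd (e.2, e.1))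
    (fun e he => by
      obtain ⟨⟨h1, h2⟩, h3, h4, h5⟩ := hpr e he
      have h6 := hE _ h3
      refine ⟨h1, h2, h6.2.2.1, h4, h6.2.2.2.1, Ne.symm h6.2.2.2.2.1, ?_⟩
      have h7 := proj_mem hJ.conn hE3 (hgr _ h1).2.1 h3 h5
      rw [(hgr _ h1).2.2] at h7
      exact h7)
    L hL
    (fun z hz w hw => by
      refine le_trans ?_ (hA z (hgr z hz).1 w hw)
      apply mul_le_mul_of_nonneg_left _ (by linarith [hJ.one])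
      have : ({b ∈ A | (z, b) ∈ pr Q A E Wd c k ∧ Wd (b, z) = w} : Finset Pt) ⊆
          {a ∈ A | (a, z) ∈ E ∧ Wd (a, z) = w} := by
        intro b hb
        obtain ⟨h1, h2, h3⟩ := mem_filter.1 hb
        exact mem_filter.2 ⟨h1, (hpr _ h2).2.1, h3⟩
      exact_mod_cast card_le_card this)
    M D hM hD hMD
  exact key

/-- all the groups of a leaf -/
theorem leaf_leX (hG : GroupAt X Y1 Y2 K lam Q W I R) (hY1 : 0 ≤ Y1) (hY2 : 0 ≤ Y2)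
    (hJ : JView K lam Q W I R)
    (hE : ∀ e ∈ E, e.1 ∈ A ∧ e.2 ∈ Q ∧ Wd e ∈ W ∧ e.2 ∈ R (Wd e) ∧ e.1.1 ≠ e.2.1 ∧
      sl e.1 e.2 ∈ I (Wd e)) {L : ℝ} (hL : 1 ≤ L)
    (hA : open Classical in
      ∀ z ∈ Q, ∀ w ∈ W, lam * #{a ∈ A | (a, z) ∈ E ∧ Wd (a, z) = w} ≤ L * #A)
    {M : ℕ} {D : ℝ} (hM : 1 ≤ M) (hD : 1 ≤ D) (hMD : X * (K * L * D ^ 6 * #Q) ≤ lam ^ 2 * M)
    (c : Pt) :
    D * ((∑ k ∈ W ×ˢ (univ : Finset (Bool × Bool)), #(bad Q A E Wd M c k) : ℕ) : ℝ) ≤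
      (Y1 + 4 * Y2) * #Q * #A := by
  classical
  set Ks : Finset (ℕ × Bool × Bool) := W ×ˢ (univ : Finset (Bool × Bool)) with hKs
  have h1 : ∑ k ∈ Ks, #(gr Q E Wd c k) ≤ #Q := by
    rw [← card_biUnion]
    · refine card_le_card fun z hz => ?_
      obtain ⟨k, _, hk⟩ := mem_biUnion.1 hz
      unfold gr at hk
      exact (mem_filter.1 hk).1
    · intro k _ k' _ hne
      rw [Function.onFun, disjoint_left]
      intro z hz hz'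
      unfold gr at hz hz'
      exact hne ((mem_filter.1 hz).2.2.symm.trans (mem_filter.1 hz').2.2)
  have h2 : ∑ k ∈ Ks, #{p ∈ Q | sl c p ∈ I k.1} ≤ 4 * #Q := by
    have h3 : ∑ w ∈ W, #{p ∈ Q | sl c p ∈ I w} ≤ #Q := by
      rw [← card_biUnion]
      · refine card_le_card fun z hz => ?_
        obtain ⟨k, _, hk⟩ := mem_biUnion.1 hz
        exact (mem_filter.1 hk).1
      · intro w hw w' hw' hne
        rw [Function.onFun, disjoint_left]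
        intro z hz hz'
        exact Set.disjoint_left.1 (hJ.disj w hw w' hw' hne) (mem_filter.1 hz).2
          (mem_filter.1 hz').2
    rw [hKs, sum_product]
    calc ∑ w ∈ W, ∑ _x ∈ (univ : Finset (Bool × Bool)), #{p ∈ Q | sl c p ∈ I w}
        = ∑ w ∈ W, 4 * #{p ∈ Q | sl c p ∈ I w} := by
          refine sum_congr rfl fun w _ => ?_
          rw [sum_const, smul_eq_mul]
          rfl
      _ = 4 * ∑ w ∈ W, #{p ∈ Q | sl c p ∈ I w} := by rw [mul_sum]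
      _ ≤ 4 * #Q := Nat.mul_le_mul_left _ h3
  have h3 : ∀ k ∈ Ks, D * (#(bad Q A E Wd M c k) : ℝ) ≤
      (Y1 * #(gr Q E Wd c k) + Y2 * #{p ∈ Q | sl c p ∈ I k.1}) * #A := by
    intro k hk
    exact group_leX hG hY1 hY2 hJ hE hL hA hM hD hMD c k (mem_product.1 hk).1
  have h4 : (∑ k ∈ Ks, (#(gr Q E Wd c k) : ℝ)) ≤ #Q := by exact_mod_cast h1
  have h5 : (∑ k ∈ Ks, (#{p ∈ Q | sl c p ∈ I k.1} : ℝ)) ≤ 4 * #Q := by exact_mod_cast h2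
  calc D * ((∑ k ∈ Ks, #(bad Q A E Wd M c k) : ℕ) : ℝ)
      = ∑ k ∈ Ks, D * (#(bad Q A E Wd M c k) : ℝ) := by
        push_cast
        rw [mul_sum]
    _ ≤ ∑ k ∈ Ks, (Y1 * #(gr Q E Wd c k) + Y2 * (#{p ∈ Q | sl c p ∈ I k.1} : ℝ)) * #A :=
        sum_le_sum h3
    _ = (Y1 * ∑ k ∈ Ks, (#(gr Q E Wd c k) : ℝ) +
          Y2 * ∑ k ∈ Ks, (#{p ∈ Q | sl c p ∈ I k.1} : ℝ)) * #A := by
        rw [← sum_mul, sum_add_distrib, ← mul_sum, ← mul_sum]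
    _ ≤ (Y1 * #Q + Y2 * (4 * #Q)) * #A := by
        apply mul_le_mul_of_nonneg_right _ (Nat.cast_nonneg _)
        exact add_le_add (mul_le_mul_of_nonneg_left h4 hY1) (mul_le_mul_of_nonneg_left h5 hY2)
    _ = (Y1 + 4 * Y2) * #Q * #A := by ring

/-- the large classes -/
theorem sum_YLX (hG : GroupAt X Y1 Y2 K lam Q W I R) (hY1 : 0 ≤ Y1) (hY2 : 0 ≤ Y2)
    (hJ : JView K lam Q W I R)
    (hE : ∀ e ∈ E, e.1 ∈ A ∧ e.2 ∈ Q ∧ Wd e ∈ W ∧ e.2 ∈ R (Wd e) ∧ e.1.1 ≠ e.2.1 ∧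
      sl e.1 e.2 ∈ I (Wd e)) {L : ℝ} (hL : 1 ≤ L)
    (hA : open Classical in
      ∀ z ∈ Q, ∀ w ∈ W, lam * #{a ∈ A | (a, z) ∈ E ∧ Wd (a, z) = w} ≤ L * #A)
    {M : ℕ} {D : ℝ} (hM : 1 ≤ M) (hD : 1 ≤ D) (hMD : X * (K * L * D ^ 6 * #Q) ≤ lam ^ 2 * M) :
    D * ((∑ a ∈ A, ∑ b ∈ A, #(YL Q E Wd M a b) : ℕ) : ℝ) ≤ 2 * (Y1 + 4 * Y2) * #A ^ 2 * #Q := by
  classical
  set Ks : Finset (ℕ × Bool × Bool) := W ×ˢ (univ : Finset (Bool × Bool)) with hKs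
  set G : Pt → ℕ := fun c => ∑ k ∈ Ks, #(bad Q A E Wd M c k) with hGdef
  have hkeyW : ∀ e ∈ E, key E Wd e ∈ Ks := by
    intro e he
    rw [hKs, mem_product]
    exact ⟨(hE e he).2.2.1, mem_univ _⟩
  have h1 : ∀ a ∈ A, ∑ b ∈ A, #{z ∈ YL Q E Wd M a b | th E Wd (a, z) ≤ th E Wd (b, z)} ≤ G a := by
    intro a _
    refine (sum_le_pairs (fun b => {z ∈ YL Q E Wd M a b | th E Wd (a, z) ≤ th E Wd (b, z)})
      (Ks.biUnion fun k => bad Q A E Wd M a k) ?_).trans card_biUnion_le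
    intro b hb z hz
    obtain ⟨hz1, hz2⟩ := mem_filter.1 hz
    rw [mem_biUnion]
    refine ⟨key E Wd (a, z), hkeyW _ ?_, mem_bad1 hb hz1 hz2⟩
    unfold YL at hz1
    exact (mem_XX.1 (mem_filter.1 hz1).1).2.1
  have h2 : ∀ b ∈ A, ∑ a ∈ A, #{z ∈ YL Q E Wd M a b | ¬ th E Wd (a, z) ≤ th E Wd (b, z)} ≤
      G b := by
    intro b _
    refine (sum_le_pairs (fun a => {z ∈ YL Q E Wd M a b | ¬ th E Wd (a, z) ≤ th E Wd (b, z)})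
      (Ks.biUnion fun k => bad Q A E Wd M b k) ?_).trans card_biUnion_le
    intro a ha z hz
    obtain ⟨hz1, hz2⟩ := mem_filter.1 hz
    rw [mem_biUnion]
    refine ⟨key E Wd (b, z), hkeyW _ ?_, mem_bad2 ha hz1 hz2⟩
    unfold YL at hz1
    exact (mem_XX.1 (mem_filter.1 hz1).1).2.2.1
  have h3 : ∑ a ∈ A, ∑ b ∈ A, #(YL Q E Wd M a b) ≤ ∑ a ∈ A, G a + ∑ b ∈ A, G b := by
    have e1 : ∀ a b : Pt, #(YL Q E Wd M a b) =
        #{z ∈ YL Q E Wd M a b | th E Wd (a, z) ≤ th E Wd (b, z)} +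
        #{z ∈ YL Q E Wd M a b | ¬ th E Wd (a, z) ≤ th E Wd (b, z)} := fun a b =>
      (card_filter_add_card_filter_not _).symm
    calc ∑ a ∈ A, ∑ b ∈ A, #(YL Q E Wd M a b)
        = ∑ a ∈ A, ∑ b ∈ A, #{z ∈ YL Q E Wd M a b | th E Wd (a, z) ≤ th E Wd (b, z)} +
          ∑ a ∈ A, ∑ b ∈ A, #{z ∈ YL Q E Wd M a b | ¬ th E Wd (a, z) ≤ th E Wd (b, z)} := by
          rw [← sum_add_distrib]
          refine sum_congr rfl fun a _ => ?_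
          rw [← sum_add_distrib]
          exact sum_congr rfl fun b _ => e1 a b
      _ ≤ _ := by
          refine Nat.add_le_add (sum_le_sum h1) ?_
          rw [sum_comm]
          exact sum_le_sum h2
  have h4 : ∀ c ∈ A, D * (G c : ℝ) ≤ (Y1 + 4 * Y2) * #Q * #A := by
    intro c _
    exact leaf_leX hG hY1 hY2 hJ hE hL hA hM hD hMD c
  have h5 : D * ∑ c ∈ A, (G c : ℝ) ≤ #A * ((Y1 + 4 * Y2) * #Q * #A) := by
    rw [mul_sum, ← nsmul_eq_mul, ← sum_const]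
    exact sum_le_sum h4
  have h6 : ((∑ a ∈ A, ∑ b ∈ A, #(YL Q E Wd M a b) : ℕ) : ℝ) ≤ 2 * ∑ c ∈ A, (G c : ℝ) := by
    have : ((∑ a ∈ A, ∑ b ∈ A, #(YL Q E Wd M a b) : ℕ) : ℝ) ≤
        ((∑ a ∈ A, G a + ∑ b ∈ A, G b : ℕ) : ℝ) := by exact_mod_cast h3
    push_cast at this ⊢
    linarith
  calc D * ((∑ a ∈ A, ∑ b ∈ A, #(YL Q E Wd M a b) : ℕ) : ℝ) ≤ D * (2 * ∑ c ∈ A, (G c : ℝ)) :=
        mul_le_mul_of_nonneg_left h6 (by linarith)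
    _ = 2 * (D * ∑ c ∈ A, (G c : ℝ)) := by ring
    _ ≤ 2 * (#A * ((Y1 + 4 * Y2) * #Q * #A)) := by linarith
    _ = 2 * (Y1 + 4 * Y2) * #A ^ 2 * #Q := by ring

/-- **LEMMA M** from its one-group form -/
theorem multAt (hJ : JView K lam Q W I R) (hG : GroupAt X Y1 Y2 K lam Q W I R)
    (hY1 : 0 ≤ Y1) (hY2 : 0 ≤ Y2) (A : Finset Pt) (E : Finset (Pt × Pt)) (Wd : Pt × Pt → ℕ)
    (hE : ∀ e ∈ E, e.1 ∈ A ∧ e.2 ∈ Q ∧ Wd e ∈ W ∧ e.2 ∈ R (Wd e) ∧ e.1.1 ≠ e.2.1 ∧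
      sl e.1 e.2 ∈ I (Wd e)) (L : ℝ) (hL : 1 ≤ L)
    (hA : open Classical in
      ∀ z ∈ Q, ∀ w ∈ W, lam * #{a ∈ A | (a, z) ∈ E ∧ Wd (a, z) = w} ≤ L * #A)
    (M : ℕ) (D : ℝ) (hM : 1 ≤ M) (hD : 1 ≤ D)
    (hMD : X * (K * L * D ^ 6 * #Q) ≤ lam ^ 2 * M) : open Classical in
    D * #{t ∈ A ×ˢ A ×ˢ Q | (t.1, t.2.2) ∈ E ∧ (t.2.1, t.2.2) ∈ E ∧
        Wd (t.1, t.2.2) ≠ Wd (t.2.1, t.2.2) ∧
        16 * M ≤ #{z ∈ Q | (t.1, z) ∈ E ∧ (t.2.1, z) ∈ E ∧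
          Wd (t.1, z) = Wd (t.1, t.2.2) ∧ Wd (t.2.1, z) = Wd (t.2.1, t.2.2)}} ≤
      4 * (Y1 + 4 * Y2) * #A ^ 2 * #Q := by
  classical
  have hY := sum_YLX hG hY1 hY2 hJ hE hL hA hM hD hMD
  set T : Finset (Pt × Pt × Pt) := {t ∈ A ×ˢ A ×ˢ Q | (t.1, t.2.2) ∈ E ∧ (t.2.1, t.2.2) ∈ E ∧
        Wd (t.1, t.2.2) ≠ Wd (t.2.1, t.2.2) ∧
        16 * M ≤ #{z ∈ Q | (t.1, z) ∈ E ∧ (t.2.1, z) ∈ E ∧
          Wd (t.1, z) = Wd (t.1, t.2.2) ∧ Wd (t.2.1, z) = Wd (t.2.1, t.2.2)}} with hT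
  have h1 : #T ≤ ∑ a ∈ A, ∑ b ∈ A, 2 * #(YL Q E Wd M a b) := by
    have e1 : #T = ∑ a ∈ A, ∑ b ∈ A, #{z ∈ Q | (a, b, z) ∈ T} := by
      have e2 : #T = ∑ t ∈ A ×ˢ A ×ˢ Q, if t ∈ T then 1 else 0 := by
        rw [← card_filter]
        congr 1
        ext t
        constructor
        · intro h
          exact mem_filter.2 ⟨(mem_filter.1 (hT ▸ h)).1, h⟩
        · intro h
          exact (mem_filter.1 h).2
      rw [e2, sum_product]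
      refine sum_congr rfl fun a _ => ?_
      rw [sum_product]
      refine sum_congr rfl fun b _ => ?_
      rw [card_filter]
    rw [e1]
    refine sum_le_sum fun a ha => sum_le_sum fun b hb => ?_
    have h2 := classes (XX Q E Wd a b) (fun z => (Wd (a, z), Wd (b, z))) (cls E Wd a b) M
    have h3 : Fintype.card (Bool × Bool × Bool) = 8 := rfl
    rw [h3] at h2
    refine le_trans (card_le_card ?_) h2
    intro z hz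
    obtain ⟨hzQ, hzT⟩ := mem_filter.1 hz
    rw [hT, mem_filter] at hzT
    obtain ⟨_, g1, g2, g3, g4⟩ := hzT
    simp only at g1 g2 g3 g4
    refine mem_filter.2 ⟨mem_XX.2 ⟨hzQ, g1, g2, g3⟩, ?_⟩
    refine le_trans (by omega) (g4.trans (card_le_card ?_))
    intro y hy
    obtain ⟨y1, y2, y3, y4, y5⟩ := mem_filter.1 hy
    refine mem_filter.2 ⟨mem_XX.2 ⟨y1, y2, y3, ?_⟩, ?_⟩
    · rw [y4, y5]; exact g3
    · rw [y4, y5]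
  have h2 : (#T : ℝ) ≤ 2 * ((∑ a ∈ A, ∑ b ∈ A, #(YL Q E Wd M a b) : ℕ) : ℝ) := by
    have : #T ≤ 2 * ∑ a ∈ A, ∑ b ∈ A, #(YL Q E Wd M a b) := by
      refine h1.trans (le_of_eq ?_)
      rw [mul_sum]
      refine sum_congr rfl fun a _ => ?_
      rw [mul_sum]
    exact_mod_cast this
  calc D * (#T : ℝ) ≤ D * (2 * ((∑ a ∈ A, ∑ b ∈ A, #(YL Q E Wd M a b) : ℕ) : ℝ)) :=
        mul_le_mul_of_nonneg_left h2 (by linarith)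
    _ = 2 * (D * ((∑ a ∈ A, ∑ b ∈ A, #(YL Q E Wd M a b) : ℕ) : ℝ)) := by ring
    _ ≤ 2 * (2 * (Y1 + 4 * Y2) * #A ^ 2 * #Q) := by linarith
    _ = 4 * (Y1 + 4 * Y2) * #A ^ 2 * #Q := by ring

/-- helper930's one-group theorem -/
theorem groupAt_930 (hJ : JView K lam Q W I R) (hN : lam ^ 5 ≤ #Q) :
    GroupAt (3000000 * ((Nat.log 2 #Q : ℝ) + 1) ^ 2) 2 2 K lam Q W I R := by
  classical
  intro c w0 m0 hw0 hm0 g A hg hside Pr Wd hPr L hL hA M D hM hD hMD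
  have h := H930.stGroup' K lam Q W I R hJ hN c w0 m0 hw0 hm0 g A hg hside Pr Wd hPr L hL hA M D
    hM hD (le_trans (le_of_eq (by ring)) hMD)
  refine h.trans (le_of_eq ?_)
  ring

open Classical in
/-- **LEMMA M**, unconditional (constants with a logarithm) -/
theorem stMult' (hJ : JView K lam Q W I R) (hN : lam ^ 5 ≤ #Q) (A : Finset Pt)
    (E : Finset (Pt × Pt)) (Wd : Pt × Pt → ℕ)
    (hE : ∀ e ∈ E, e.1 ∈ A ∧ e.2 ∈ Q ∧ Wd e ∈ W ∧ e.2 ∈ R (Wd e) ∧ e.1.1 ≠ e.2.1 ∧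
      sl e.1 e.2 ∈ I (Wd e)) (L : ℝ) (hL : 1 ≤ L)
    (hA : ∀ z ∈ Q, ∀ w ∈ W, lam * #{a ∈ A | (a, z) ∈ E ∧ Wd (a, z) = w} ≤ L * #A)
    (M : ℕ) (D : ℝ) (hM : 1 ≤ M) (hD : 1 ≤ D)
    (hMD : 3000000 * ((Nat.log 2 #Q : ℝ) + 1) ^ 2 * (K * L * D ^ 6 * #Q) ≤ lam ^ 2 * M) :
    D * #{t ∈ A ×ˢ A ×ˢ Q | (t.1, t.2.2) ∈ E ∧ (t.2.1, t.2.2) ∈ E ∧
        Wd (t.1, t.2.2) ≠ Wd (t.2.1, t.2.2) ∧
        16 * M ≤ #{z ∈ Q | (t.1, z) ∈ E ∧ (t.2.1, z) ∈ E ∧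
          Wd (t.1, z) = Wd (t.1, t.2.2) ∧ Wd (t.2.1, z) = Wd (t.2.1, t.2.2)}} ≤
      40 * #A ^ 2 * #Q := by
  refine (multAt hJ (groupAt_930 hJ hN) (by norm_num) (by norm_num) A E Wd hE L hL hA M D hM hD
    hMD).trans (le_of_eq ?_)
  ring

end multx

end Vale.Agent.P065.UB.H666.Mult
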